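import Vale.Agent.P329.Reduce

/-! Closure properties of languages of generalized star height zero and at most one (P329). -/

namespace Vale.Agent.P329.Height

open Vale.Agent.P329

variable {α : Type*}

/-- Star-free language. -/
def SF (L : Language α) : Prop := ∃ E : GRE α, E.sh = 0 ∧ E.lang = L

/-- Language of generalized star height at most one. -/
def H1 (L : Language α) : Prop := ∃ E : GRE α, E.sh ≤ 1 ∧ E.lang = L

theorem sf_congr {L L' : Language α} (hL : SF L) (h : ∀ w, w ∈ L ↔ w ∈ L') : SF L' := by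
  have e : L = L' := Set.ext h
  exact e ▸ hL

theorem h1_congr {L L' : Language α} (hL : H1 L) (h : ∀ w, w ∈ L ↔ w ∈ L') : H1 L' := by
  have e : L = L' := Set.ext h
  exact e ▸ hL

theorem sf_zero : SF (0 : Language α) := ⟨.zero, rfl, rfl⟩

theorem sf_one : SF (1 : Language α) := ⟨.one, rfl, rfl⟩

theorem sf_letter (a : α) : SF ({[a]} : Language α) := ⟨.letter a, rfl, rfl⟩

theorem sf_add {L L' : Language α} (h : SF L) (h' : SF L') : SF (L + L') := by
  obtain ⟨E, hE, rfl⟩ := h
  obtain ⟨F, hF, rfl⟩ := h'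
  exact ⟨.plus E F, by simp [GRE.sh, hE, hF], rfl⟩

theorem sf_mul {L L' : Language α} (h : SF L) (h' : SF L') : SF (L * L') := by
  obtain ⟨E, hE, rfl⟩ := h
  obtain ⟨F, hF, rfl⟩ := h'
  exact ⟨.cat E F, by simp [GRE.sh, hE, hF], rfl⟩

theorem sf_compl {L : Language α} (h : SF L) : SF (Lᶜ) := by
  obtain ⟨E, hE, rfl⟩ := h
  exact ⟨.neg E, by simp [GRE.sh, hE], rfl⟩

/-- The language of all words. -/
def Any : Language α := Set.univ

theorem sf_univ : SF (Any : Language α) :=
  sf_congr (sf_compl sf_zero) fun w => iff_of_true (Language.notMem_zero w) trivial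

theorem sf_inter {L L' : Language α} (h : SF L) (h' : SF L') : SF (L ⊓ L') :=
  sf_congr (sf_compl (sf_add (sf_compl h) (sf_compl h'))) fun w => by
    show ¬(¬ w ∈ L ∨ ¬ w ∈ L') ↔ w ∈ L ∧ w ∈ L'
    tauto

theorem sf_pow {L : Language α} (h : SF L) : ∀ n : ℕ, SF (L ^ n)
  | 0 => by rw [pow_zero]; exact sf_one
  | n + 1 => by rw [pow_succ]; exact sf_mul (sf_pow h n) h

theorem sf_biUnion {ι : Type*} (s : Finset ι) (L : ι → Language α) (h : ∀ i ∈ s, SF (L i)) :
    SF ({w | ∃ i ∈ s, w ∈ L i} : Language α) := by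
  classical
  induction s using Finset.induction_on with
  | empty =>
    exact sf_congr sf_zero fun w => iff_of_false (Language.notMem_zero w)
      fun ⟨i, hi, _⟩ => absurd hi (Finset.notMem_empty i)
  | insert a s _ ih =>
    refine sf_congr (sf_add (h a (Finset.mem_insert_self a s))
      (ih fun i hi => h i (Finset.mem_insert_of_mem hi))) fun w => ?_
    show w ∈ L a ∨ (∃ i ∈ s, w ∈ L i) ↔ ∃ i ∈ insert a s, w ∈ L i
    simp [Finset.mem_insert]

theorem sf_exists {ι : Type*} [Finite ι] (L : ι → Language α) (h : ∀ i, SF (L i)) :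
    SF ({w | ∃ i, w ∈ L i} : Language α) := by
  cases nonempty_fintype ι
  exact sf_congr (sf_biUnion Finset.univ L fun i _ => h i) fun w =>
    ⟨fun ⟨i, _, hi⟩ => ⟨i, hi⟩, fun ⟨i, hi⟩ => ⟨i, Finset.mem_univ i, hi⟩⟩

theorem sf_h1 {L : Language α} (h : SF L) : H1 L := by
  obtain ⟨E, hE, rfl⟩ := h
  exact ⟨E, by omega, rfl⟩

theorem h1_zero : H1 (0 : Language α) := sf_h1 sf_zero

theorem h1_univ : H1 (Any : Language α) := sf_h1 sf_univ

theorem h1_star {L : Language α} (h : SF L) : H1 (KStar.kstar L) := by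
  obtain ⟨E, hE, rfl⟩ := h
  exact ⟨.star E, by simp [GRE.sh, hE], rfl⟩

theorem h1_add {L L' : Language α} (h : H1 L) (h' : H1 L') : H1 (L + L') := by
  obtain ⟨E, hE, rfl⟩ := h
  obtain ⟨F, hF, rfl⟩ := h'
  exact ⟨.plus E F, by simp [GRE.sh]; omega, rfl⟩

theorem h1_mul {L L' : Language α} (h : H1 L) (h' : H1 L') : H1 (L * L') := by
  obtain ⟨E, hE, rfl⟩ := h
  obtain ⟨F, hF, rfl⟩ := h'
  exact ⟨.cat E F, by simp [GRE.sh]; omega, rfl⟩

theorem h1_compl {L : Language α} (h : H1 L) : H1 (Lᶜ) := by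
  obtain ⟨E, hE, rfl⟩ := h
  exact ⟨.neg E, by simp [GRE.sh]; omega, rfl⟩

theorem h1_inter {L L' : Language α} (h : H1 L) (h' : H1 L') : H1 (L ⊓ L') :=
  h1_congr (h1_compl (h1_add (h1_compl h) (h1_compl h'))) fun w => by
    show ¬(¬ w ∈ L ∨ ¬ w ∈ L') ↔ w ∈ L ∧ w ∈ L'
    tauto

theorem h1_biUnion {ι : Type*} (s : Finset ι) (L : ι → Language α) (h : ∀ i ∈ s, H1 (L i)) :
    H1 ({w | ∃ i ∈ s, w ∈ L i} : Language α) := by
  classical
  induction s using Finset.induction_on with
  | empty =>
    exact h1_congr h1_zero fun w => iff_of_false (Language.notMem_zero w)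
      fun ⟨i, hi, _⟩ => absurd hi (Finset.notMem_empty i)
  | insert a s _ ih =>
    refine h1_congr (h1_add (h a (Finset.mem_insert_self a s))
      (ih fun i hi => h i (Finset.mem_insert_of_mem hi))) fun w => ?_
    show w ∈ L a ∨ (∃ i ∈ s, w ∈ L i) ↔ ∃ i ∈ insert a s, w ∈ L i
    simp [Finset.mem_insert]

theorem h1_exists {ι : Type*} [Finite ι] (L : ι → Language α) (h : ∀ i, H1 (L i)) :
    H1 ({w | ∃ i, w ∈ L i} : Language α) := by
  cases nonempty_fintype ι
  exact h1_congr (h1_biUnion Finset.univ L fun i _ => h i) fun w =>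
    ⟨fun ⟨i, _, hi⟩ => ⟨i, hi⟩, fun ⟨i, hi⟩ => ⟨i, Finset.mem_univ i, hi⟩⟩

/-- All fibres have generalized star height at most one. -/
def Meas {β : Type*} (f : List α → β) : Prop := ∀ b, H1 ({w | f w = b} : Language α)

theorem meas_const {β : Type*} (b : β) : Meas (fun _ : List α => b) := fun c => by
  by_cases h : b = c
  · exact h1_congr h1_univ fun w => iff_of_true trivial h
  · exact h1_congr h1_zero fun w => iff_of_false (Language.notMem_zero w) h

theorem meas_comp {β γ : Type*} [Finite β] {f : List α → β} (hf : Meas f) (g : β → γ) :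
    Meas (fun w => g (f w)) := fun c =>
  h1_congr (h1_exists (fun b : {b // g b = c} => ({w | f w = b.1} : Language α))
    fun b => hf b.1) fun w => by
    constructor
    · rintro ⟨⟨b, hb⟩, hw⟩
      show g (f w) = c
      rw [show f w = b from hw, hb]
    · intro hw
      exact ⟨⟨f w, hw⟩, rfl⟩

theorem meas_pair {β γ : Type*} {f : List α → β} {g : List α → γ} (hf : Meas f)
    (hg : Meas g) : Meas (fun w => (f w, g w)) := fun c =>
  h1_congr (h1_inter (hf c.1) (hg c.2)) fun w => by
    show f w = c.1 ∧ g w = c.2 ↔ (f w, g w) = c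
    exact (Prod.ext_iff (x := (f w, g w))).symm

theorem meas_pi {ι : Type*} [Finite ι] {β : Type*} {f : ι → List α → β}
    (hf : ∀ i, Meas (f i)) : Meas (fun w i => f i w) := fun c =>
  h1_congr (h1_compl (h1_exists (fun i => (({w | f i w = c i} : Language α))ᶜ)
    fun i => h1_compl (hf i (c i)))) fun w => by
    show ¬ (∃ i, ¬ f i w = c i) ↔ (fun i => f i w) = c
    rw [not_exists_not, funext_iff]

theorem meas_add {β : Type*} [Finite β] [Add β] {f g : List α → β} (hf : Meas f)
    (hg : Meas g) : Meas (fun w => f w + g w) :=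
  meas_comp (meas_pair hf hg) (fun x => x.1 + x.2)

theorem meas_sub {β : Type*} [Finite β] [Sub β] {f g : List α → β} (hf : Meas f)
    (hg : Meas g) : Meas (fun w => f w - g w) :=
  meas_comp (meas_pair hf hg) (fun x => x.1 - x.2)

theorem meas_sum {β : Type*} [Finite β] [AddCommMonoid β] {ι : Type*} (s : Finset ι)
    {f : ι → List α → β} (hf : ∀ i ∈ s, Meas (f i)) : Meas (fun w => ∑ i ∈ s, f i w) := by
  classical
  induction s using Finset.induction_on with
  | empty => simpa using meas_const (0 : β)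
  | insert a s ha ih =>
    have := meas_add (hf a (Finset.mem_insert_self a s))
      (ih fun i hi => hf i (Finset.mem_insert_of_mem hi))
    simpa [Finset.sum_insert ha] using this

theorem meas_congr {β : Type*} {f g : List α → β} (hf : Meas f) (h : ∀ w, f w = g w) :
    Meas g := fun c => h1_congr (hf c) fun w => by
  show f w = c ↔ g w = c
  rw [h]

end Vale.Agent.P329.Height
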