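import Vale.Agent.P329.Height.Units

/-! The number of occurrences of a letter at a given phase, modulo `m`, has fibres of generalized
star height at most one, for phases in an elementary abelian `p`-group (P329). -/

namespace Vale.Agent.P329.Height

open Vale.Agent.P329

variable {α : Type} [DecidableEq α]

/-- Occurrences of `x` read at phase `v`, starting from phase `q`. -/
def cnt {Q : Type*} [AddCommMonoid Q] [DecidableEq Q] (φ : α → Q) (x : α) (v : Q) :
    Q → List α → ℕ
  | _, [] => 0
  | q, a :: w => (if a = x ∧ q = v then 1 else 0) + cnt φ x v (q + φ a) w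

theorem cnt_append {Q : Type*} [AddCommMonoid Q] [DecidableEq Q] (φ : α → Q) (x : α) (v : Q) :
    ∀ (u w : List α) (q : Q),
      cnt φ x v q (u ++ w) = cnt φ x v q u + cnt φ x v (q + ph φ u) w
  | [], w, q => by simp [cnt]
  | a :: u, w, q => by simp [cnt, cnt_append φ x v u w, add_assoc]

theorem meas_count [Fintype α] (x : α) (M : ℕ) [NeZero M] :
    Meas (fun w : List α => ((w.count x : ℕ) : ZMod M)) := by
  classical
  intro c
  let K : Language α := {u | ∃ a, u = [a]}
  let P : Language α := {[x]}
  have hKP : K ⊓ P = P := inf_eq_right.2 fun u hu => ⟨x, hu⟩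
  have hR : SF (KStar.kstar (K ⊓ Pᶜ)) := by
    refine sf_congr (sf_over ((Finset.univ : Finset α).erase x)) fun w => ?_
    rw [Language.mem_kstar]
    constructor
    · intro h
      refine ⟨w.map fun a => [a], ?_, ?_⟩
      · induction w with
        | nil => rfl
        | cons a w ih =>
          rw [List.map_cons, List.flatten_cons,
            ← ih fun b hb => h b (List.mem_cons_of_mem _ hb)]
          rfl
      · intro y hy
        obtain ⟨a, ha, rfl⟩ := List.mem_map.1 hy
        refine ⟨⟨a, rfl⟩, fun e => ?_⟩
        have e' : [a] = [x] := e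
        simp only [List.cons.injEq, and_true] at e'
        exact (Finset.mem_erase.1 (h a ha)).1 e'
    · rintro ⟨S, rfl, hS⟩ a ha
      obtain ⟨l, hl, hal⟩ := List.mem_flatten.1 ha
      obtain ⟨⟨b, rfl⟩, hb⟩ := hS l hl
      rw [List.mem_singleton] at hal
      subst hal
      exact Finset.mem_erase.2 ⟨fun e => hb (show [a] = [x] by rw [e]), Finset.mem_univ _⟩
  have key : ∀ us : List (List α), (∀ u ∈ us, u ∈ K) →
      (us.countP fun u => decide (u ∈ P)) = us.flatten.count x := by
    intro us
    induction us with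
    | nil => intro _; rfl
    | cons u us ih =>
      intro h
      obtain ⟨a, rfl⟩ := h u (List.mem_cons_self ..)
      rw [List.flatten_cons, List.singleton_append, List.countP_cons, List.count_cons,
        ih fun v hv => h v (List.mem_cons_of_mem _ hv)]
      by_cases hax : a = x
      · subst hax
        simp [P]
        rfl
      · have : [a] ∉ P := fun e => hax (by simpa using (show [a] = [x] from e))
        simp [this, hax]
  refine h1_congr (h1_count K P (by rw [hKP]; exact sf_letter x) hR M c) fun w => ?_
  constructor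
  · rintro ⟨us, h1, rfl, h3⟩
    show ((us.flatten.count x : ℕ) : ZMod M) = c
    rw [← key us h1]
    exact h3
  · intro hw
    have hflat : (w.map fun a => [a]).flatten = w := by
      clear hw
      induction w with
      | nil => rfl
      | cons a w ih => simp [ih]
    have hK : ∀ u ∈ w.map (fun a => [a]), u ∈ K := by
      intro u hu
      obtain ⟨a, -, rfl⟩ := List.mem_map.1 hu
      exact ⟨a, rfl⟩
    refine ⟨w.map fun a => [a], hK, hflat, ?_⟩
    rw [key _ hK, hflat]
    exact hw

theorem meas_of_scaled (k m : ℕ) [NeZero k] [NeZero m] {N : List α → ℕ}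
    (h : Meas (fun w => (((k * N w : ℕ)) : ZMod (k * m)))) :
    Meas (fun w => ((N w : ℕ) : ZMod m)) :=
  meas_congr (meas_comp h fun z => ((z.val / k : ℕ) : ZMod m)) fun w => by
    rw [ZMod.val_natCast, Nat.mul_mod_mul_left,
      Nat.mul_div_cancel_left _ (NeZero.pos k), ZMod.natCast_mod]

section Base

variable {p : ℕ} (φ : α → ZMod p) (x : α)

theorem cnt_eq_zero : ∀ (w : List α) (v q : ZMod p),
    (∀ z a t, w = z ++ a :: t → a = x → q + ph φ z ≠ v) → cnt φ x v q w = 0
  | [], _, _, _ => rfl
  | a :: w, v, q, h => by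
    have h0 : ¬ (a = x ∧ q = v) := fun e => h [] a w rfl e.1 (by simpa using e.2)
    simp only [cnt, h0, if_false, zero_add]
    exact cnt_eq_zero w v _ fun z b t e hb => by
      simpa [add_assoc] using h (a :: z) b t (by simp [e]) hb

theorem cnt_dep (v : ZMod p) (w : List α)
    (h : ∀ z a t, w = z ++ a :: t → z ≠ [] → ph φ z ≠ 0) :
    cnt φ x v v w = if w.head? = some x then 1 else 0 := by
  rcases w with _ | ⟨a, w⟩
  · simp [cnt]
  · rw [cnt, cnt_eq_zero φ x w v _ fun z b t e _ => ?_]
    · simp
    · intro he
      refine h (a :: z) b t (by simp [e]) (by simp) ?_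
      rw [ph_cons]
      linear_combination he

theorem cnt_arr (v q : ZMod p) (w : List α) (hend : q + ph φ w = v)
    (h : ∀ z a t, w = z ++ a :: t → t ≠ [] → q + ph φ z + φ a ≠ v) :
    cnt φ x (v - φ x) q w = if w.getLast? = some x then 1 else 0 := by
  rcases List.eq_nil_or_concat w with rfl | ⟨m, l, rfl⟩
  · simp [cnt]
  · rw [List.concat_eq_append] at *
    rw [cnt_append, cnt_eq_zero φ x m _ _ fun z a t e ha => ?_]
    · simp only [zero_add, cnt, add_zero, List.getLast?_concat, Option.some.injEq]
      by_cases hl : l = x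
      · subst hl
        have : q + ph φ m = v - φ l := by
          rw [ph_append, ph_cons, ph_nil, add_zero] at hend
          linear_combination hend
        simp [this]
      · simp [hl]
    · intro he
      refine h z a (t ++ [l]) (by simp [e]) (by simp) ?_
      rw [ha, he, sub_add_cancel]

variable [Fintype α] [Fact p.Prime]

theorem cnt_flatten (v : ZMod p) : ∀ us : List (List α), (∀ u ∈ us, u ∈ Ret φ) →
    cnt φ x v v us.flatten = us.countP (fun u => decide (u.head? = some x)) ∧
      cnt φ x (v - φ x) v us.flatten = us.countP (fun u => decide (u.getLast? = some x))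
  | [], _ => ⟨rfl, rfl⟩
  | u :: us, h => by
    obtain ⟨hu0, hu1, hu2⟩ := h u (List.mem_cons_self ..)
    obtain ⟨i1, i2⟩ := cnt_flatten v us fun w hw => h w (List.mem_cons_of_mem _ hw)
    rw [List.flatten_cons, cnt_append, cnt_append, hu1, add_zero, i1, i2,
      cnt_dep φ x v u hu2, cnt_arr φ x v v u (by rw [hu1, add_zero]) ?_]
    · simp [List.countP_cons, add_comm]
    · intro z a t e ht he
      obtain ⟨b, t', rfl⟩ := List.exists_cons_of_ne_nil ht
      refine hu2 (z ++ [a]) b t' (by simp [e]) (by simp) ?_
      rw [ph_append, ph_cons, ph_nil, add_zero]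
      linear_combination he

theorem decomp (v : ZMod p) (w : List α) (hw : w ∉ Never φ v) :
    ∃ a ∈ Pre φ v, ∃ b ∈ KStar.kstar (Ret φ), ∃ c ∈ Post φ, w = a ++ b ++ c := by
  classical
  have h' : ∃ i, i ≤ w.length ∧ ph φ (w.take i) = v := by
    by_contra hne
    refine hw fun z t hzt he => hne ⟨z.length, ?_, ?_⟩
    · simp [hzt]
    · simpa [hzt] using he
  obtain ⟨i, ⟨h1, h2⟩, hmin⟩ : ∃ i, (i ≤ w.length ∧ ph φ (w.take i) = v) ∧
      ∀ j, j < i → ¬ (j ≤ w.length ∧ ph φ (w.take j) = v) :=
    ⟨Nat.find h', Nat.find_spec h', fun j hj => Nat.find_min h' hj⟩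
  obtain ⟨us, hus, q, hq, e⟩ := units_exist φ (w.drop i)
  refine ⟨w.take i, ⟨h2, fun z a t hz he => ?_⟩, us.flatten,
    Language.mem_kstar.2 ⟨us, rfl, hus⟩, q, hq, ?_⟩
  · have hlen : z.length < i := by
      have := congrArg List.length hz
      rw [List.length_take, List.length_append, List.length_cons] at this
      omega
    refine hmin _ hlen ⟨by omega, ?_⟩
    have : w.take z.length = z := by
      have e := congrArg (List.take z.length) hz
      rw [List.take_take, Nat.min_eq_left (by omega)] at e
      simpa using e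
    rw [this]
    exact he
  · rw [List.append_assoc, ← e, List.take_append_drop]

/-- Glue a function of the middle part with the boundary letters. -/
theorem meas_glue (v : ZMod p) (M : ℕ) [NeZero M] (f g : List α → ZMod M) (hg : Meas g)
    (F : Bool → ZMod M → Bool → ZMod M) (h0 : ∀ w ∈ Never φ v, f w = 0)
    (h1 : ∀ a ∈ Pre φ v, ∀ b ∈ KStar.kstar (Ret φ), ∀ c ∈ Post φ, f (a ++ b ++ c) =
      F (decide (a.getLast? = some x)) (g b) (decide (c.head? = some x))) :
    Meas f := by
  intro e
  let Lst : Bool → Language α := fun i => {a | decide (a.getLast? = some x) = i}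
  let Hd : Bool → Language α := fun i => {a | decide (a.head? = some x) = i}
  have hx1 : SF (Lst true) := sf_congr (sf_mul sf_univ (sf_letter x)) fun a => by
    refine Language.mem_mul.trans ?_
    show _ ↔ decide (a.getLast? = some x) = true
    rw [decide_eq_true_iff]
    constructor
    · rintro ⟨r, -, b, hb, rfl⟩
      have hb' : b = [x] := hb
      subst hb'
      simp
    · intro h
      exact ⟨a.dropLast, trivial, [x], rfl, List.dropLast_append_getLast? x h⟩
  have hy1 : SF (Hd true) := sf_congr (sf_mul (sf_letter x) sf_univ) fun a => by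
    refine Language.mem_mul.trans ?_
    show _ ↔ decide (a.head? = some x) = true
    rw [decide_eq_true_iff]
    constructor
    · rintro ⟨b, hb, r, -, rfl⟩
      have hb' : b = [x] := hb
      subst hb'
      rfl
    · intro h
      exact ⟨[x], rfl, a.tail, trivial, List.cons_head?_tail h⟩
  have hL : ∀ i, SF (Lst i) := by
    intro i
    cases i
    · refine sf_congr (sf_compl hx1) fun a => ?_
      show ¬ decide (a.getLast? = some x) = true ↔ decide (a.getLast? = some x) = false
      simp
    · exact hx1
  have hH : ∀ i, SF (Hd i) := by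
    intro i
    cases i
    · refine sf_congr (sf_compl hy1) fun a => ?_
      show ¬ decide (a.head? = some x) = true ↔ decide (a.head? = some x) = false
      simp
    · exact hy1
  have hmid : ∀ c', H1 (KStar.kstar (Ret φ) ⊓ ({b | g b = c'} : Language α)) := fun c' =>
    h1_inter (h1_star (sf_ret φ)) (hg c')
  have hrest : H1 (if e = 0 then Never φ v else 0) := by
    split
    · exact sf_h1 (sf_never φ v)
    · exact h1_zero
  refine h1_congr (h1_add (h1_exists (fun i : {i : Bool × ZMod M × Bool // F i.1 i.2.1 i.2.2 = e} =>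
    (Pre φ v ⊓ Lst i.1.1) * (KStar.kstar (Ret φ) ⊓ ({b | g b = i.1.2.1} : Language α)) *
      (Post φ ⊓ Hd i.1.2.2)) fun i => h1_mul (h1_mul (sf_h1 (sf_inter (sf_pre φ v) (hL _)))
        (hmid _)) (sf_h1 (sf_inter (sf_post φ) (hH _)))) hrest) fun w => ?_
  refine (Language.mem_add _ _ w).trans ?_
  show _ ↔ f w = e
  constructor
  · rintro (⟨⟨⟨i, c', j⟩, hF⟩, hw⟩ | hw)
    · obtain ⟨ab, hab, c, ⟨hc, hcj⟩, rfl⟩ := Language.mem_mul.1 hw
      obtain ⟨a, ⟨ha, hai⟩, b, ⟨hb, hbg⟩, rfl⟩ := Language.mem_mul.1 hab
      rw [h1 a ha b hb c hc, ← hF]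
      have e1 : decide (a.getLast? = some x) = i := hai
      have e2 : g b = c' := hbg
      have e3 : decide (c.head? = some x) = j := hcj
      rw [e1, e2, e3]
    · by_cases he : e = 0
      · rw [if_pos he] at hw
        rw [h0 w hw, he]
      · rw [if_neg he] at hw
        exact absurd hw (Language.notMem_zero w)
  · intro hw
    by_cases hn : w ∈ Never φ v
    · right
      rw [h0 w hn] at hw
      rw [if_pos hw.symm]
      exact hn
    · left
      obtain ⟨a, ha, b, hb, c, hc, rfl⟩ := decomp φ v w hn
      refine ⟨⟨(decide (a.getLast? = some x), g b, decide (c.head? = some x)), ?_⟩, ?_⟩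
      · show F _ _ _ = e
        rw [← h1 a ha b hb c hc, hw]
      · exact Language.append_mem_mul (Language.append_mem_mul ⟨ha, rfl⟩ ⟨hb, rfl⟩) ⟨hc, rfl⟩

open Classical in
theorem head_count : ∀ us : List (List α), (∀ u ∈ us, u ∈ Ret φ) →
    us.countP (fun u => decide (u.head? = some x)) =
        ∑ y : α, us.countP (fun u => decide (u ∈ Cls φ x y)) ∧
      us.countP (fun u => decide (u.getLast? = some x)) =
        ∑ y : α, us.countP (fun u => decide (u ∈ Cls φ y x))
  | [], _ => by simp
  | u :: us, h => by
    obtain ⟨i1, i2⟩ := head_count us fun w hw => h w (List.mem_cons_of_mem _ hw)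
    have hu := h u (List.mem_cons_self ..)
    obtain ⟨l, hl⟩ : ∃ l, u.getLast? = some l := ⟨_, List.getLast?_eq_some_getLast hu.1⟩
    obtain ⟨a, ha⟩ : ∃ a, u.head? = some a := ⟨_, List.head?_eq_some_head hu.1⟩
    have e1 : ∀ y, (u ∈ Cls φ x y) = (a = x ∧ l = y) := fun y => propext
      ⟨fun ⟨_, p, q⟩ => ⟨by simpa [ha] using p, by simpa [hl] using q⟩,
        fun ⟨p, q⟩ => ⟨hu, by rw [ha, p], by rw [hl, q]⟩⟩
    have e2 : ∀ y, (u ∈ Cls φ y x) = (a = y ∧ l = x) := fun y => propext
      ⟨fun ⟨_, p, q⟩ => ⟨by simpa [ha] using p, by simpa [hl] using q⟩,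
        fun ⟨p, q⟩ => ⟨hu, by rw [ha, p], by rw [hl, q]⟩⟩
    simp only [List.countP_cons, Finset.sum_add_distrib, i1, i2, ha, hl, e1, e2, Option.some.injEq]
    constructor
    · by_cases hx : a = x <;> simp [hx]
    · by_cases hx : l = x <;> simp [hx]

theorem meas_diff (v : ZMod p) (M : ℕ) [NeZero M] :
    Meas (fun w => ((cnt φ x v 0 w : ℕ) : ZMod M) - ((cnt φ x (v - φ x) 0 w : ℕ) : ZMod M)) := by
  classical
  let g : List α → ZMod M := fun b => ∑ y ∈ Finset.univ.erase x,
    (((units φ b).countP (fun u => decide (u ∈ Cls φ x y)) : ZMod M) -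
      ((units φ b).countP (fun u => decide (u ∈ Cls φ y x)) : ZMod M))
  have hg : Meas g := meas_sum _ fun y hy => by
    have hne : x ≠ y := ((Finset.mem_erase.1 hy).1).symm
    have hp : ∀ a b : α, a ≠ b →
        Meas (fun w => (((units φ w).countP (fun u => decide (u ∈ Cls φ a b)) : ℕ) : ZMod M)) := by
      intro a b hab
      have e : Ret φ ⊓ Cls φ a b = Cls φ a b := cls_inter φ a b
      let R : Language α := Ret φ ⊓ (Cls φ a b)ᶜ
      have hR0 : Ret φ ⊓ R = R := inf_eq_right.2 inf_le_left
      have hR1 : Ret φ ⊓ Rᶜ = Cls φ a b := by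
        ext u
        show u ∈ Ret φ ∧ ¬ (u ∈ Ret φ ∧ ¬ u ∈ Cls φ a b) ↔ u ∈ Cls φ a b
        constructor
        · rintro ⟨h1, h2⟩
          by_contra h3
          exact h2 ⟨h1, h3⟩
        · exact fun h => ⟨h.1, fun h' => h'.2 h⟩
      have all : Meas (fun w => (((units φ w).countP (fun u => decide (u ∈ Ret φ)) : ℕ) : ZMod M)) := by
        refine meas_units_count φ (Ret φ) (by rw [inf_idem]; exact sf_ret φ) ?_ M
        have : Ret φ ⊓ (Ret φ)ᶜ = (0 : Language α) := inf_compl_eq_bot
        rw [this, kstar_zero]
        exact sf_one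
      have rest : Meas (fun w => (((units φ w).countP (fun u => decide (u ∈ R)) : ℕ) : ZMod M)) :=
        meas_units_count φ R
          (by rw [hR0]; exact sf_inter (sf_ret φ) (sf_compl (sf_cls φ a b)))
          (by rw [hR1]; exact sf_kstar_cls φ hab) M
      refine meas_congr (meas_sub all rest) fun w => ?_
      have hsplit : ∀ us : List (List α), us.countP (fun u => decide (u ∈ Ret φ)) =
          us.countP (fun u => decide (u ∈ R)) + us.countP (fun u => decide (u ∈ Cls φ a b)) := by
        intro us
        induction us with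
        | nil => rfl
        | cons u us ih =>
          simp only [List.countP_cons, ih]
          by_cases hu : u ∈ Ret φ
          · by_cases hc : u ∈ Cls φ a b
            · have : ¬ u ∈ R := fun h => h.2 hc
              simp [hu, hc, this]; omega
            · have : u ∈ R := ⟨hu, hc⟩
              simp [hu, hc, this]; omega
          · have h3 : ¬ u ∈ R := fun h => hu h.1
            have h4 : ¬ u ∈ Cls φ a b := fun h => hu h.1
            simp [hu, h3, h4]
      rw [hsplit, Nat.cast_add, add_sub_cancel_left]
    exact meas_sub (hp x y hne) (hp y x hne.symm)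
  refine meas_glue φ x v M _ g hg
    (fun i c' j => c' + (if j then (1 : ZMod M) else 0) - (if i then (1 : ZMod M) else 0)) ?_ ?_
  · intro w hw
    rw [cnt_eq_zero φ x w v 0 fun z a t e _ => ?_, cnt_eq_zero φ x w (v - φ x) 0 fun z a t e ha => ?_]
    · simp
    · intro he
      refine hw (z ++ [a]) t (by simp [e]) ?_
      rw [ph_append, ph_cons, ph_nil, add_zero, ha]
      linear_combination he
    · simpa using hw z (a :: t) e
  · intro a ha b hb c hc
    obtain ⟨us, rfl, hus⟩ := Language.mem_kstar.1 hb
    obtain ⟨ha1, ha2⟩ := ha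
    have hpost : ∀ z l t, c = z ++ l :: t → z ≠ [] → ph φ z ≠ 0 := fun z l t e => hc z (l :: t) e
    have hmid : ph φ us.flatten = 0 := by
      clear hb
      induction us with
      | nil => rfl
      | cons u us ih =>
        rw [List.flatten_cons, ph_append, (hus u (List.mem_cons_self ..)).2.1, zero_add,
          ih fun w hw => hus w (List.mem_cons_of_mem _ hw)]
    rw [cnt_append, cnt_append, cnt_append, cnt_append, ph_append, hmid, add_zero, zero_add, ha1,
      (cnt_flatten φ x v us hus).1, (cnt_flatten φ x v us hus).2, cnt_dep φ x v c hpost,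
      cnt_arr φ x v 0 a (by rw [zero_add, ha1]) ?_,
      cnt_eq_zero φ x a v 0 fun z l t e _ => ?_,
      cnt_eq_zero φ x c (v - φ x) v fun z l t e hl => ?_]
    · obtain ⟨e1, e2⟩ := head_count φ x us hus
      have hgu : g us.flatten = (us.countP (fun u => decide (u.head? = some x)) : ZMod M) -
          (us.countP (fun u => decide (u.getLast? = some x)) : ZMod M) := by
        simp only [g, units_flatten φ hus, e1, e2, Nat.cast_sum, ← Finset.sum_sub_distrib]
        exact Finset.sum_erase _ (sub_self _)
      rw [hgu]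
      simp only [Nat.cast_add, Nat.cast_ite, Nat.cast_one, Nat.cast_zero, decide_eq_true_eq]
      ring
    · intro he
      refine hc (z ++ [l]) t (by simp [e]) (by simp) ?_
      rw [ph_append, ph_cons, ph_nil, add_zero, hl]
      linear_combination he
    · rw [zero_add]
      exact ha2 z l t e
    · intro z l t e ht
      obtain ⟨b', t', rfl⟩ := List.exists_cons_of_ne_nil ht
      rw [zero_add]
      intro he
      refine ha2 (z ++ [l]) b' t' (by simp [e]) ?_
      rw [ph_append, ph_cons, ph_nil, add_zero, he]

theorem meas_fix (hx : φ x = 0) (v : ZMod p) (M : ℕ) [NeZero M] :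
    Meas (fun w => ((cnt φ x v 0 w : ℕ) : ZMod M)) := by
  classical
  let g : List α → ZMod M := fun b =>
    (((units φ b).countP (fun u => decide (u ∈ Cls φ x x)) : ℕ) : ZMod M)
  have hg : Meas g := by
    let R : Language α := Ret φ ⊓ (Cls φ x x)ᶜ
    have all : Meas (fun w => (((units φ w).countP (fun u => decide (u ∈ Ret φ)) : ℕ) : ZMod M)) := by
      refine meas_units_count φ (Ret φ) (by rw [inf_idem]; exact sf_ret φ) ?_ M
      have : Ret φ ⊓ (Ret φ)ᶜ = (0 : Language α) := inf_compl_eq_bot
      rw [this, kstar_zero]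
      exact sf_one
    have hR0 : Ret φ ⊓ R = R := inf_eq_right.2 inf_le_left
    have hR1 : Ret φ ⊓ Rᶜ = Cls φ x x := by
      ext u
      show u ∈ Ret φ ∧ ¬ (u ∈ Ret φ ∧ ¬ u ∈ Cls φ x x) ↔ u ∈ Cls φ x x
      constructor
      · rintro ⟨h1, h2⟩
        by_contra h3
        exact h2 ⟨h1, h3⟩
      · exact fun h => ⟨h.1, fun h' => h'.2 h⟩
    have rest : Meas (fun w => (((units φ w).countP (fun u => decide (u ∈ R)) : ℕ) : ZMod M)) :=
      meas_units_count φ R
        (by rw [hR0]; exact sf_inter (sf_ret φ) (sf_compl (sf_cls φ x x)))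
        (by rw [hR1, cls_fix φ hx]; exact sf_kstar_letter x) M
    refine meas_congr (meas_sub all rest) fun w => ?_
    have hsplit : ∀ us : List (List α), us.countP (fun u => decide (u ∈ Ret φ)) =
        us.countP (fun u => decide (u ∈ R)) + us.countP (fun u => decide (u ∈ Cls φ x x)) := by
      intro us
      induction us with
      | nil => rfl
      | cons u us ih =>
        simp only [List.countP_cons, ih]
        by_cases hu : u ∈ Ret φ
        · by_cases hc : u ∈ Cls φ x x
          · have : ¬ u ∈ R := fun h => h.2 hc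
            simp [hu, hc, this]; omega
          · have : u ∈ R := ⟨hu, hc⟩
            simp [hu, hc, this]; omega
        · have h3 : ¬ u ∈ R := fun h => hu h.1
          have h4 : ¬ u ∈ Cls φ x x := fun h => hu h.1
          simp [hu, h3, h4]
    show _ = g w
    simp only [g, hsplit, Nat.cast_add, add_sub_cancel_left]
  refine meas_glue φ x v M _ g hg (fun _ c' _ => c') ?_ ?_
  · intro w hw
    rw [cnt_eq_zero φ x w v 0 fun z a t e _ => ?_]
    · simp
    · simpa using hw z (a :: t) e
  · intro a ha b hb c hc
    obtain ⟨us, rfl, hus⟩ := Language.mem_kstar.1 hb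
    obtain ⟨ha1, ha2⟩ := ha
    have hmid : ph φ us.flatten = 0 := by
      clear hb
      induction us with
      | nil => rfl
      | cons u us ih =>
        rw [List.flatten_cons, ph_append, (hus u (List.mem_cons_self ..)).2.1, zero_add,
          ih fun w hw => hus w (List.mem_cons_of_mem _ hw)]
    rw [cnt_append, cnt_append, ph_append, hmid, add_zero, zero_add, ha1,
      (cnt_flatten φ x v us hus).1, cnt_dep φ x v c fun z l t e => hc z (l :: t) e,
      cnt_eq_zero φ x a v 0 fun z l t e _ => ?_]
    · have h1 : ¬ c.head? = some x := by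
        intro he
        exact hc [x] c.tail (List.cons_head?_tail he).symm (by simp) (by simp [hx])
      have h2 : us.countP (fun u => decide (u.head? = some x)) =
          us.countP (fun u => decide (u ∈ Cls φ x x)) := by
        refine List.countP_congr fun u hu => ?_
        simp only [decide_eq_true_eq]
        constructor
        · intro hh
          rw [cls_fix φ hx]
          obtain ⟨-, -, h2⟩ := hus u hu
          rcases u with _ | ⟨a', u⟩
          · simp at hh
          · simp only [List.head?_cons, Option.some.injEq] at hh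
            subst hh
            rcases u with _ | ⟨b', u⟩
            · rfl
            · exact absurd (by simp [hx]) (h2 [a'] b' u rfl (by simp))
        · exact fun hh => hh.2.1
      simp [g, units_flatten φ hus, h1, h2]
    · rw [zero_add]
      exact ha2 z l t e

theorem cnt_sum : ∀ (w : List α) (q : ZMod p), ∑ v : ZMod p, cnt φ x v q w = w.count x
  | [], _ => by simp [cnt]
  | a :: w, q => by
    simp only [cnt, Finset.sum_add_distrib, cnt_sum w, List.count_cons]
    by_cases h : a = x <;> simp [h, add_comm]

theorem meas_cnt_prime (v : ZMod p) (m : ℕ) [NeZero m] :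
    Meas (fun w => ((cnt φ x v 0 w : ℕ) : ZMod m)) := by
  by_cases hs : φ x = 0
  · exact meas_fix φ x hs v m
  have : NeZero p := ⟨(Fact.out : p.Prime).ne_zero⟩
  let M := p * m
  have hj : ∀ (j : ℕ), Meas (fun w => ((cnt φ x v 0 w : ℕ) : ZMod M) -
      ((cnt φ x (v - j • φ x) 0 w : ℕ) : ZMod M)) := by
    intro j
    induction j with
    | zero => exact meas_congr (meas_const (0 : ZMod M)) fun w => by simp
    | succ j ih =>
      refine meas_congr (meas_add ih (meas_diff φ x (v - j • φ x) M)) fun w => ?_
      rw [show v - j • φ x - φ x = v - (j + 1) • φ x by rw [succ_nsmul]; abel]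
      ring
  have hq : ∀ q : ZMod p, Meas (fun w => ((cnt φ x v 0 w : ℕ) : ZMod M) -
      ((cnt φ x q 0 w : ℕ) : ZMod M)) := by
    intro q
    have e : v - ((v - q) / φ x).val • φ x = q := by
      rw [nsmul_eq_mul, ZMod.natCast_val, ZMod.cast_id, div_mul_cancel₀ _ hs]
      abel
    have := hj ((v - q) / φ x).val
    rwa [e] at this
  refine meas_of_scaled p m (meas_congr
    (meas_add (meas_sum Finset.univ fun q _ => hq q) (meas_count x M)) fun w => ?_)
  rw [Finset.sum_sub_distrib, Finset.sum_const, Finset.card_univ, ZMod.card, ← Nat.cast_sum,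
    cnt_sum, nsmul_eq_mul, Nat.cast_mul]
  ring

end Base

variable {p : ℕ} [Fact p.Prime] [Fintype α]

theorem indicator_lines {n : ℕ} (q v : Fin (n + 2) → ZMod p) :
    p * (if q = v then 1 else 0) + (if Fin.tail (Fin.tail q) = Fin.tail (Fin.tail v) then 1 else 0) =
      (if Fin.tail q = Fin.tail v then 1 else 0) + ∑ c : ZMod p,
        (if (Fin.cons (q 0 + c * q 1) (Fin.tail (Fin.tail q)) : Fin (n + 1) → ZMod p) =
          Fin.cons (v 0 + c * v 1) (Fin.tail (Fin.tail v)) then 1 else 0 : ℕ) := by
  by_cases hX : Fin.tail (Fin.tail q) = Fin.tail (Fin.tail v)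
  · have hT : Fin.tail q = Fin.tail v ↔ q 1 = v 1 := by
      constructor
      · intro h
        exact congrFun h 0
      · intro h
        funext i
        refine Fin.cases ?_ (fun j => congrFun hX j) i
        exact h
    have hq : q = v ↔ q 0 = v 0 ∧ q 1 = v 1 := by
      constructor
      · rintro rfl
        exact ⟨rfl, rfl⟩
      · rintro ⟨h0, h1⟩
        rw [← Fin.cons_self_tail q, ← Fin.cons_self_tail v, h0, hT.2 h1]
    simp only [Fin.cons_inj, hX, and_true, if_true, hq, hT]
    by_cases h1 : q 1 = v 1
    · by_cases h0 : q 0 = v 0 <;> simp [h0, h1, add_comm]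
    · have e : ∀ c : ZMod p, q 0 + c * q 1 = v 0 + c * v 1 ↔ c = (v 0 - q 0) / (q 1 - v 1) := by
        intro c
        rw [eq_div_iff (sub_ne_zero.2 h1)]
        constructor <;> intro h <;> linear_combination h
      simp [h1, e]
  · have hT : ¬ Fin.tail q = Fin.tail v := fun h => hX (congrArg Fin.tail h)
    have hq : ¬ q = v := fun h => hX (by rw [h])
    simp [hX, hT, hq, Fin.cons_inj]

theorem cnt_lines {n : ℕ} (φ : α → Fin (n + 2) → ZMod p) (x : α) (v : Fin (n + 2) → ZMod p) :
    ∀ (w : List α) (q : Fin (n + 2) → ZMod p),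
    p * cnt φ x v q w + cnt (fun a => Fin.tail (Fin.tail (φ a))) x (Fin.tail (Fin.tail v))
        (Fin.tail (Fin.tail q)) w =
      cnt (fun a => Fin.tail (φ a)) x (Fin.tail v) (Fin.tail q) w + ∑ c : ZMod p,
        cnt (fun a => (Fin.cons (φ a 0 + c * φ a 1) (Fin.tail (Fin.tail (φ a))) :
          Fin (n + 1) → ZMod p)) x (Fin.cons (v 0 + c * v 1) (Fin.tail (Fin.tail v)))
          (Fin.cons (q 0 + c * q 1) (Fin.tail (Fin.tail q))) w
  | [], q => by simp [cnt]
  | a :: w, q => by
    have ih := cnt_lines φ x v w (q + φ a)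
    have hc : ∀ c : ZMod p, (Fin.cons ((q + φ a) 0 + c * (q + φ a) 1)
        (Fin.tail (Fin.tail (q + φ a))) : Fin (n + 1) → ZMod p) =
        Fin.cons (q 0 + c * q 1) (Fin.tail (Fin.tail q)) +
          Fin.cons (φ a 0 + c * φ a 1) (Fin.tail (Fin.tail (φ a))) := by
      intro c
      funext i
      refine Fin.cases ?_ (fun j => ?_) i
      · simp; ring
      · simp [Fin.tail]
    have h1 : Fin.tail (q + φ a) = Fin.tail q + Fin.tail (φ a) := rfl
    have h2 : Fin.tail (Fin.tail (q + φ a)) = Fin.tail (Fin.tail q) + Fin.tail (Fin.tail (φ a)) :=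
      rfl
    have h3 : Fin.tail (Fin.tail q + Fin.tail (φ a)) =
        Fin.tail (Fin.tail q) + Fin.tail (Fin.tail (φ a)) := rfl
    simp only [hc] at ih
    simp only [h1, h3] at ih
    simp only [cnt, Finset.sum_add_distrib]
    by_cases ha : a = x
    · simp only [ha, true_and]
      simp only [ha] at ih
      have := indicator_lines q v
      linarith
    · simp only [ha, false_and, if_false, Finset.sum_const_zero, zero_add]
      linarith

theorem meas_cnt : ∀ (n : ℕ) (φ : α → Fin n → ZMod p) (x : α) (v : Fin n → ZMod p) (m : ℕ)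
    [NeZero m], Meas (fun w => ((cnt φ x v 0 w : ℕ) : ZMod m))
  | 0, φ, x, v, m, _ => by
    refine meas_congr (meas_count x m) fun w => ?_
    have : ∀ (w : List α) q, cnt φ x v q w = w.count x := by
      intro w
      induction w with
      | nil => intro q; rfl
      | cons a w ih =>
        intro q
        simp only [cnt, ih, List.count_cons, Subsingleton.elim q v]
        by_cases h : a = x <;> simp [h, add_comm]
    rw [this]
  | 1, φ, x, v, m, _ => by
    refine meas_congr (meas_cnt_prime (fun a => φ a 0) x (v 0) m) fun w => ?_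
    have : ∀ (w : List α) q, cnt (fun a => φ a 0) x (v 0) (q 0) w = cnt φ x v q w := by
      intro w
      induction w with
      | nil => intro q; rfl
      | cons a w ih =>
        intro q
        have e : q 0 = v 0 ↔ q = v := by
          constructor
          · intro h
            funext i
            rw [Subsingleton.elim i 0, h]
          · rintro rfl
            rfl
        simp only [cnt, ← ih, e, Pi.add_apply]
    exact congrArg Nat.cast (this w 0)
  | n + 2, φ, x, v, m, _ => by
    have : NeZero p := ⟨(Fact.out : p.Prime).ne_zero⟩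
    refine meas_of_scaled p m (meas_congr (meas_sub (meas_add
      (meas_cnt (n + 1) (fun a => Fin.tail (φ a)) x (Fin.tail v) (p * m))
      (meas_sum Finset.univ fun (c : ZMod p) _ => meas_cnt (n + 1)
        (fun a => (Fin.cons (φ a 0 + c * φ a 1) (Fin.tail (Fin.tail (φ a))) :
          Fin (n + 1) → ZMod p)) x (Fin.cons (v 0 + c * v 1) (Fin.tail (Fin.tail v))) (p * m)))
      (meas_cnt n (fun a => Fin.tail (Fin.tail (φ a))) x (Fin.tail (Fin.tail v)) (p * m)))
      fun w => ?_)
    have h := cnt_lines φ x v w 0
    have z1 : Fin.tail (0 : Fin (n + 2) → ZMod p) = 0 := rfl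
    have z2 : Fin.tail (0 : Fin (n + 1) → ZMod p) = 0 := rfl
    have z3 : ∀ c : ZMod p, (Fin.cons ((0 : Fin (n + 2) → ZMod p) 0 +
        c * (0 : Fin (n + 2) → ZMod p) 1) 0 : Fin (n + 1) → ZMod p) = 0 := by
      intro c
      funext i
      refine Fin.cases ?_ (fun j => ?_) i <;> simp
    simp only [z1, z2, z3] at h
    rw [eq_comm, eq_sub_iff_add_eq]
    exact_mod_cast congrArg (Nat.cast : ℕ → ZMod (p * m)) h

end Vale.Agent.P329.Height
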