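import Vale.Agent.P329.Height.Count

/-! Languages recognized by finite groups with an abelian subgroup with elementary abelian
`p`-quotient have generalized star height at most one (P329). -/

namespace Vale.Agent.P329.Height

open Vale.Agent.P329

theorem h1_group_coords {α G : Type} [Fintype α] [DecidableEq α] [Group G] [Finite G] {p n : ℕ}
    [Fact p.Prime] (π : G → Fin n → ZMod p) (hπ : ∀ g h, π (g * h) = π g + π h)
    (hA : ∀ a b : G, π a = 0 → π b = 0 → a * b = b * a) (f : α → G) (S : Set G) :
    H1 ({w | (w.map f).prod ∈ S} : Language α) := by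
  classical
  have : NeZero p := ⟨(Fact.out : p.Prime).ne_zero⟩
  let A : Subgroup G :=
    { carrier := {g | π g = 0}
      mul_mem' := fun {a b} ha hb => by
        show π (a * b) = 0
        rw [hπ, ha, hb, add_zero]
      one_mem' := by
        show π 1 = 0
        have := hπ 1 1
        rw [one_mul] at this
        exact left_eq_add.1 this
      inv_mem' := fun {a} ha => by
        show π a⁻¹ = 0
        have h1 : π 1 = 0 := by
          have := hπ 1 1
          rw [one_mul] at this
          exact left_eq_add.1 this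
        have := hπ a⁻¹ a
        rw [inv_mul_cancel, h1, ha, add_zero] at this
        exact this.symm }
  let instA : CommGroup A :=
    { (inferInstance : Group A) with mul_comm := fun a b => Subtype.ext (hA a b a.2 b.2) }
  let φ : α → Fin n → ZMod p := fun a => π (f a)
  let t : (Fin n → ZMod p) → G := fun q => if h : ∃ g, π g = q then Classical.choose h else 1
  have ht : ∀ q, (∃ g, π g = q) → π (t q) = q := fun q h => by
    simp only [t, dif_pos h]
    exact Classical.choose_spec h
  let c : α × (Fin n → ZMod p) → A := fun i =>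
    if h : t i.2 * f i.1 * (t (i.2 + φ i.1))⁻¹ ∈ A then ⟨_, h⟩ else 1
  have hc : ∀ a g, ((c (a, π g) : A) : G) = t (π g) * f a * (t (π g + φ a))⁻¹ := by
    intro a g
    have h : t (π g) * f a * (t (π g + φ a))⁻¹ ∈ A := by
      show π _ = 0
      have e1 : π (t (π g + φ a)) = π g + φ a := ht _ ⟨g * f a, hπ g (f a)⟩
      have e2 := hπ (t (π g + φ a))⁻¹ (t (π g + φ a))
      rw [inv_mul_cancel, A.one_mem, e1] at e2
      rw [hπ, hπ, ht _ ⟨g, rfl⟩]
      show π g + φ a + _ = 0
      rw [add_comm]
      exact e2.symm
    simp only [c, dif_pos h]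
  have key : ∀ (w : List α) (g : G), t (π g) * (w.map f).prod =
      ((∏ i : α × (Fin n → ZMod p), c i ^ cnt φ i.1 i.2 (π g) w : A) : G) *
        t (π g + ph φ w) := by
    intro w
    induction w with
    | nil => intro g; simp [cnt]
    | cons a w ih =>
      intro g
      have hg : π (g * f a) = π g + φ a := hπ g (f a)
      have h2 := ih (g * f a)
      rw [hg] at h2
      have hsplit : (∏ i : α × (Fin n → ZMod p), c i ^ cnt φ i.1 i.2 (π g) (a :: w)) =
          c (a, π g) * ∏ i : α × (Fin n → ZMod p), c i ^ cnt φ i.1 i.2 (π g + φ a) w := by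
        simp only [cnt, pow_add, Finset.prod_mul_distrib]
        congr 1
        rw [Finset.prod_eq_single (a, π g)]
        · simp
        · rintro ⟨b, q⟩ _ hne
          have hn : ¬ (a = b ∧ π g = q) := fun h => hne (by rw [h.1, h.2])
          simp [hn]
        · simp
      rw [hsplit, Subgroup.coe_mul, ph_cons, ← add_assoc, mul_assoc, ← h2, hc, List.map_cons,
        List.prod_cons]
      group
  let N := Nat.card A
  have : NeZero N := ⟨Nat.card_pos.ne'⟩
  have hph : Meas (fun w : List α => ph φ w) := by
    refine meas_congr (meas_comp (meas_pi fun a : α => meas_count a p)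
      fun z => ∑ a : α, z a • φ a) fun w => ?_
    show ∑ a : α, ((w.count a : ℕ) : ZMod p) • φ a = ph φ w
    induction w with
    | nil => simp
    | cons b w ih =>
      simp only [List.count_cons, Nat.cast_add, add_smul, Finset.sum_add_distrib, ih, ph_cons]
      rw [add_comm (φ b)]
      congr 1
      rw [Finset.sum_eq_single b]
      · simp
      · intro a _ hab
        simp [Ne.symm hab]
      · simp
  have hvec : Meas (fun w : List α => fun i : α × (Fin n → ZMod p) =>
      ((cnt φ i.1 i.2 0 w : ℕ) : ZMod N)) :=
    meas_pi fun i => meas_cnt n φ i.1 i.2 N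
  let val : List α → G := fun w => (t 0)⁻¹ *
    ((∏ i : α × (Fin n → ZMod p), c i ^ ((cnt φ i.1 i.2 0 w : ℕ) : ZMod N).val : A) : G) *
      t (ph φ w)
  have hval : ∀ w, (w.map f).prod = val w := by
    intro w
    have h0 : π 1 = 0 := A.one_mem
    have := key w 1
    rw [h0, zero_add] at this
    simp only [val, ZMod.val_natCast]
    have e : ∀ i : α × (Fin n → ZMod p),
        c i ^ (cnt φ i.1 i.2 0 w % N) = c i ^ cnt φ i.1 i.2 0 w := fun i => pow_mod_natCard _ _
    simp only [e]
    rw [mul_assoc, ← this, inv_mul_cancel_left]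
  have hmeas : Meas (fun w : List α => decide (val w ∈ S)) :=
    meas_comp (meas_pair hvec hph) fun z => decide ((t 0)⁻¹ *
      ((∏ i : α × (Fin n → ZMod p), c i ^ (z.1 i).val : A) : G) * t z.2 ∈ S)
  refine h1_congr (hmeas true) fun w => ?_
  show decide (val w ∈ S) = true ↔ (w.map f).prod ∈ S
  rw [decide_eq_true_iff, hval]

theorem exists_coords {p : ℕ} [Fact p.Prime] (M : Type) [AddCommGroup M] [Finite M]
    [Module (ZMod p) M] : ∃ n, Nonempty (M ≃+ (Fin n → ZMod p)) :=
  ⟨_, ⟨((Module.finBasis (ZMod p) M).equivFun).toAddEquiv⟩⟩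

theorem h1_group {α G : Type} [Fintype α] [DecidableEq α] [Group G] [Finite G] {p : ℕ}
    [Fact p.Prime] (A : Subgroup G) (hA : ∀ a ∈ A, ∀ b ∈ A, a * b = b * a)
    (hpow : ∀ g : G, g ^ p ∈ A) (hcomm : ∀ g h : G, g * h * g⁻¹ * h⁻¹ ∈ A)
    (f : α → G) (S : Set G) : H1 ({w | (w.map f).prod ∈ S} : Language α) := by
  classical
  have hn : A.Normal := ⟨fun a ha g => by
    have := A.mul_mem (hcomm g a) ha
    simpa [mul_assoc] using this⟩
  let instQ : CommGroup (G ⧸ A) :=
    { (inferInstance : Group (G ⧸ A)) with
      mul_comm := by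
        intro x y
        induction x using QuotientGroup.induction_on with
        | H g =>
          induction y using QuotientGroup.induction_on with
          | H h =>
            show ((g * h : G) : G ⧸ A) = ((h * g : G) : G ⧸ A)
            rw [QuotientGroup.eq_iff_div_mem]
            simpa [div_eq_mul_inv, mul_assoc] using hcomm g h }
  have hp : ∀ x : Additive (G ⧸ A), p • x = 0 := by
    intro x
    obtain ⟨g, hg⟩ := QuotientGroup.mk_surjective (Additive.toMul x)
    apply Additive.toMul.injective
    rw [toMul_nsmul, toMul_zero, ← hg, ← QuotientGroup.mk_pow]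
    exact (QuotientGroup.eq_one_iff _).2 (hpow g)
  letI instM : Module (ZMod p) (Additive (G ⧸ A)) := AddCommGroup.zmodModule (G := Additive (G ⧸ A)) hp
  haveI : Finite (Additive (G ⧸ A)) := Finite.of_equiv (G ⧸ A) Additive.ofMul
  obtain ⟨n, ⟨e⟩⟩ := @exists_coords p _ (Additive (G ⧸ A)) _ this instM
  refine h1_group_coords (p := p) (fun g : G => e (Additive.ofMul (g : G ⧸ A))) (fun g h => ?_)
    (fun a b ha hb => ?_) f S
  · rw [← map_add, ← ofMul_mul, QuotientGroup.mk_mul]
  · have conv : ∀ x : G, e (Additive.ofMul (x : G ⧸ A)) = 0 → x ∈ A := fun x hx => by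
      rw [EmbeddingLike.map_eq_zero_iff, ofMul_eq_zero] at hx
      exact (QuotientGroup.eq_one_iff x).1 hx
    exact hA a (conv a ha) b (conv b hb)

end Vale.Agent.P329.Height
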