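import Vale.Agent.P329.Height.Schutz

/-! Local conditions on the phase walk of a word, with values in `ZMod p`, are star-free when no
chain of two transitions is allowed at every phase (P329). -/

namespace Vale.Agent.P329.Height

open Vale.Agent.P329

variable {α : Type} {p : ℕ}

/-- Acceptance by local conditions: previous letter, phase, next letter. -/
def acc (φ : α → ZMod p) (A : Option α → ZMod p → Option α → Prop) :
    Option α × ZMod p → List α → Prop
  | s, [] => A s.1 s.2 none
  | s, a :: w => A s.1 s.2 (some a) ∧ acc φ A (some a, s.2 + φ a) w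

open Classical in
/-- One step of the automaton of local conditions. -/
noncomputable def step (φ : α → ZMod p) (A : Option α → ZMod p → Option α → Prop) (a : α) :
    Option (Option α × ZMod p) → Option (Option α × ZMod p)
  | none => none
  | some s => if A s.1 s.2 (some a) then some (some a, s.2 + φ a) else none

/-- Running the automaton. -/
noncomputable def run (φ : α → ZMod p) (A : Option α → ZMod p → Option α → Prop)
    (S : Option (Option α × ZMod p)) (w : List α) : Option (Option α × ZMod p) :=
  w.foldl (fun S a => step φ A a S) S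

/-- Phase of a word. -/
def ph {Q : Type*} [AddCommMonoid Q] (φ : α → Q) (w : List α) : Q := (w.map φ).sum

@[simp] theorem ph_nil {Q : Type*} [AddCommMonoid Q] (φ : α → Q) : ph φ [] = 0 := rfl

@[simp] theorem ph_cons {Q : Type*} [AddCommMonoid Q] (φ : α → Q) (a : α) (w : List α) :
    ph φ (a :: w) = φ a + ph φ w := rfl

@[simp] theorem ph_append {Q : Type*} [AddCommMonoid Q] (φ : α → Q) (u w : List α) :
    ph φ (u ++ w) = ph φ u + ph φ w := by simp [ph]

variable (φ : α → ZMod p) (A : Option α → ZMod p → Option α → Prop)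

@[simp] theorem run_nil (S : Option (Option α × ZMod p)) : run φ A S [] = S := rfl

@[simp] theorem run_cons (S : Option (Option α × ZMod p)) (a : α) (w : List α) :
    run φ A S (a :: w) = run φ A (step φ A a S) w := rfl

theorem run_append (S : Option (Option α × ZMod p)) (u w : List α) :
    run φ A S (u ++ w) = run φ A (run φ A S u) w := List.foldl_append ..

theorem run_none (w : List α) : run φ A none w = none := by
  induction w with
  | nil => rfl
  | cons a w ih => simpa [step] using ih

theorem acc_iff_run : ∀ (w : List α) (s : Option α × ZMod p),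
    acc φ A s w ↔ ∃ t, run φ A (some s) w = some t ∧ A t.1 t.2 none
  | [], s => by simp [acc]
  | a :: w, s => by
    by_cases h : A s.1 s.2 (some a)
    · simp [acc, step, h, acc_iff_run w]
    · simp [acc, step, h, run_none]

theorem run_state : ∀ (w : List α) (s t : Option α × ZMod p), run φ A (some s) w = some t →
    t.2 = s.2 + ph φ w ∧ (∀ a l, w = l ++ [a] → t.1 = some a) ∧ (w = [] → t = s)
  | [], s, t, h => by
    have : s = t := by simpa using h
    subst this
    exact ⟨by simp, fun a l h => by simp at h, fun _ => rfl⟩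
  | a :: w, s, t, h => by
    by_cases hA : A s.1 s.2 (some a)
    · simp only [run_cons, step, hA, if_true] at h
      obtain ⟨h2, h1, h0⟩ := run_state w _ t h
      refine ⟨by rw [h2, ph_cons, add_assoc], ?_, fun h => absurd h (List.cons_ne_nil _ _)⟩
      intro b l hl
      rcases l with _ | ⟨c, l⟩
      · simp only [List.nil_append, List.cons.injEq] at hl
        rw [h0 hl.2, hl.1]
      · simp only [List.cons_append, List.cons.injEq] at hl
        exact h1 b l hl.2
    · simp [step, hA, run_none] at h

theorem run_allowed {s : Option α × ZMod p} {t : Option α × ZMod p} {x : List α} {a : α}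
    {y : List α} (h : run φ A (some s) (x ++ a :: y) = some t) :
    ∃ s', run φ A (some s) x = some s' ∧ A s'.1 s'.2 (some a) := by
  rw [run_append] at h
  cases hx : run φ A (some s) x with
  | none => rw [hx, run_none] at h; exact absurd h (by simp)
  | some s' =>
    refine ⟨s', rfl, ?_⟩
    by_contra hA
    rw [hx, run_cons] at h
    simp [step, hA, run_none] at h

/-- Allowed at every phase. -/
def Full (a b : α) : Prop := ∀ q, A (some a) q (some b)

variable [Fact p.Prime]

theorem run_pow_none (hA : ∀ x y z : α, Full A x y → Full A y z → False) (u : List α)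
    (hu : ph φ u ≠ 0) (s : Option α × ZMod p) : run φ A (some s) (wpow u (p + 3)) = none := by
  by_contra hne
  obtain ⟨t, ht⟩ := Option.ne_none_iff_exists'.1 hne
  rcases List.eq_nil_or_concat u with rfl | ⟨u1, l, hl⟩
  · exact hu rfl
  rcases u with _ | ⟨u0, u'⟩
  · exact hu rfl
  rw [List.concat_eq_append] at hl
  set u := u0 :: u' with hudef
  have hphw : ∀ k : ℕ, ph φ (wpow u k) = k • ph φ u := by
    intro k
    induction k with
    | zero => simp [wpow]
    | succ k ih => rw [wpow, ph_append, ih, succ_nsmul']
  have hlast : ∀ k : ℕ, ∃ m, wpow u (k + 1) = m ++ [l] := by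
    intro k
    induction k with
    | zero => exact ⟨u1, by simp [wpow, hl]⟩
    | succ k ih =>
      obtain ⟨m, hm⟩ := ih
      exact ⟨u ++ m, by rw [wpow, hm, List.append_assoc]⟩
  obtain ⟨z, z', hz⟩ : ∃ z z', u' ++ u = z :: z' := by
    rcases u' with _ | ⟨z, z'⟩
    · exact ⟨u0, [], rfl⟩
    · exact ⟨z, z' ++ u, rfl⟩
  have key : ∀ k : ℕ, 1 ≤ k → k ≤ p + 1 →
      A (some l) (s.2 + k • ph φ u) (some u0) ∧
        A (some u0) (s.2 + k • ph φ u + φ u0) (some z) := by
    intro k hk1 hk2
    obtain ⟨r, hr⟩ := Nat.exists_eq_add_of_le (show k + 2 ≤ p + 3 by omega)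
    have e : wpow u (p + 3) = wpow u k ++ u0 :: z :: (z' ++ wpow u r) := by
      rw [hr, wpow_add, wpow_add, List.append_assoc]
      congr 1
      show u ++ (u ++ []) ++ wpow u r = _
      rw [List.append_nil, hudef, List.cons_append, ← hudef, hz]
      simp
    obtain ⟨k', rfl⟩ := Nat.exists_eq_add_of_le hk1
    obtain ⟨m, hm⟩ := hlast k'
    rw [Nat.add_comm 1 k'] at e ⊢
    rw [e] at ht
    obtain ⟨s1, hs1, hA1⟩ := run_allowed φ A ht
    obtain ⟨h2, h1, -⟩ := run_state φ A _ _ _ hs1
    rw [h1 l m hm, h2, hphw] at hA1
    refine ⟨hA1, ?_⟩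
    have e' : wpow u (k' + 1) ++ u0 :: z :: (z' ++ wpow u r) =
        (wpow u (k' + 1) ++ [u0]) ++ z :: (z' ++ wpow u r) := by simp
    rw [e'] at ht
    obtain ⟨s2, hs2, hA2⟩ := run_allowed φ A ht
    obtain ⟨g2, g1, -⟩ := run_state φ A _ _ _ hs2
    rw [g1 u0 _ rfl, g2, ph_append, hphw] at hA2
    simpa [add_assoc] using hA2
  have hcover : ∀ q : ZMod p, ∃ k : ℕ, 1 ≤ k ∧ k ≤ p + 1 ∧ s.2 + k • ph φ u = q := by
    intro q
    have hp : p ≠ 0 := (Fact.out : p.Prime).ne_zero
    have : NeZero p := ⟨hp⟩
    refine ⟨((q - s.2) / ph φ u - 1).val + 1, Nat.le_add_left .., ?_, ?_⟩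
    · have := ZMod.val_lt ((q - s.2) / ph φ u - 1)
      omega
    · rw [nsmul_eq_mul, Nat.cast_add, ZMod.natCast_val, ZMod.cast_id, Nat.cast_one,
        sub_add_cancel, div_mul_cancel₀ _ hu]
      abel
  refine hA l u0 z (fun q => ?_) (fun q => ?_)
  · obtain ⟨k, hk1, hk2, rfl⟩ := hcover q
    exact (key k hk1 hk2).1
  · obtain ⟨k, hk1, hk2, hq⟩ := hcover (q - φ u0)
    have := (key k hk1 hk2).2
    rwa [hq, sub_add_cancel] at this

theorem run_idem (u : List α) (hu : ph φ u = 0) (S : Option (Option α × ZMod p)) :
    run φ A S (wpow u 2) = run φ A S (wpow u 3) := by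
  cases S with
  | none => rw [run_none, run_none]
  | some s =>
    simp only [wpow, List.append_nil, run_append]
    cases h1 : run φ A (some s) u with
    | none => simp [run_none]
    | some t =>
      cases h2 : run φ A (some t) u with
      | none => simp [run_none]
      | some t' =>
        have : t' = t := by
          obtain ⟨g2, g1, g0⟩ := run_state φ A _ _ _ h2
          obtain ⟨f2, f1, -⟩ := run_state φ A _ _ _ h1
          rcases List.eq_nil_or_concat u with rfl | ⟨m, l, rfl⟩
          · exact g0 rfl
          · rw [List.concat_eq_append] at *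
            exact Prod.ext ((g1 l m rfl).trans (f1 l m rfl).symm) (by rw [g2, hu, add_zero])
        subst this
        rw [h2]

/-- Languages of local conditions are star-free. -/
theorem sf_acc [Fintype α] (hA : φ = 0 ∨ ∀ x y z : α, Full A x y → Full A y z → False)
    (s : Option α × ZMod p) : SF ({w | acc φ A s w} : Language α) := by
  classical
  have : NeZero p := ⟨(Fact.out : p.Prime).ne_zero⟩
  let St := Option (Option α × ZMod p)
  let E := (Function.End St)ᵐᵒᵖ
  let f : α → E := fun a => MulOpposite.op (step φ A a)
  let W : Submonoid E := MonoidHom.mrange (FreeMonoid.lift f)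
  let fW : α → W := fun a => ⟨f a, ⟨FreeMonoid.of a, FreeMonoid.lift_eval_of f a⟩⟩
  have hev : ∀ (w : List α) (S : St), (ev f w).unop S = run φ A S w := by
    intro w
    induction w with
    | nil => intro S; rfl
    | cons a w ih =>
      intro S
      rw [ev_cons, MulOpposite.unop_mul, run_cons, ← ih]
      rfl
  have hsub : ∀ w : List α, ((ev fW w : W) : E) = ev f w := by
    intro w
    induction w with
    | nil => rfl
    | cons a w ih => rw [ev_cons, ev_cons, Submonoid.coe_mul, ih]
  have hpow : ∀ (u : List α) (n : ℕ), (ev f u) ^ n = ev f (wpow u n) := by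
    intro u n
    induction n with
    | zero => rfl
    | succ n ih => rw [pow_succ', ih, wpow, ev_append]
  have hfin : Finite E := Finite.of_equiv (St → St) MulOpposite.opEquiv
  have hap : ∀ x : W, ∃ n, x ^ n = x ^ (n + 1) := by
    rintro ⟨x, w, rfl⟩
    have hx : (FreeMonoid.lift f) w = ev f (FreeMonoid.toList w) := by
      rw [FreeMonoid.lift_apply]
      rfl
    by_cases hu : ph φ (FreeMonoid.toList w) = 0
    · refine ⟨2, Subtype.ext ?_⟩
      simp only [SubmonoidClass.coe_pow, hx, hpow]
      exact MulOpposite.unop_injective (funext fun S => by rw [hev, hev, run_idem φ A _ hu])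
    · rcases hA with hA | hA
      · refine absurd (List.sum_eq_zero fun y hy => ?_) hu
        obtain ⟨a, -, rfl⟩ := List.mem_map.1 hy
        rw [hA]; rfl
      · refine ⟨p + 3, Subtype.ext ?_⟩
        simp only [SubmonoidClass.coe_pow, hx, hpow]
        refine MulOpposite.unop_injective (funext fun S => ?_)
        rw [hev, hev]
        cases S with
        | none => rw [run_none, run_none]
        | some s' =>
          rw [run_pow_none φ A hA _ hu, wpow_add, run_append, run_pow_none φ A hA _ hu, run_none]
  refine sf_congr (sf_exists (fun m : {m : W // ∃ t, (m : E).unop (some s) = some t ∧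
      A t.1 t.2 none} => ({w | ev fW w = m.1} : Language α))
    fun m => sf_of_aperiodic hap fW m.1) fun w => ?_
  show (∃ m : {m : W // ∃ t, (m : E).unop (some s) = some t ∧ A t.1 t.2 none},
    ev fW w = m.1) ↔ acc φ A s w
  rw [acc_iff_run]
  constructor
  · rintro ⟨⟨m, t, hmt, hAt⟩, rfl⟩
    exact ⟨t, by rw [← hev, ← hsub, hmt], hAt⟩
  · rintro ⟨t, ht, hAt⟩
    exact ⟨⟨ev fW w, t, by rw [hsub, hev, ht], hAt⟩, rfl⟩

theorem acc_ignore_prev (In : ZMod p → α → Prop) (End : ZMod p → Prop)
    (hA : ∀ pr q, (∀ a, A (some pr) q (some a) ↔ In q a) ∧ (A (some pr) q none ↔ End q)) :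
    ∀ (w : List α) (b : α) (q : ZMod p), acc φ A (some b, q) w ↔
      (∀ x a y, w = x ++ a :: y → In (q + ph φ x) a) ∧ End (q + ph φ w)
  | [], b, q => by simp [acc, (hA b q).2]
  | a :: w, b, q => by
    simp only [acc, (hA b q).1 a, acc_ignore_prev In End hA w a, ph_cons, add_assoc]
    constructor
    · rintro ⟨h0, h, he⟩
      refine ⟨?_, he⟩
      intro x c y hxy
      rcases x with _ | ⟨d, x⟩
      · simp only [List.nil_append, List.cons.injEq] at hxy
        simpa [hxy.1] using h0
      · simp only [List.cons_append, List.cons.injEq] at hxy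
        have := h x c y hxy.2
        rw [ph_cons, ← hxy.1]
        exact this
    · rintro ⟨h, he⟩
      refine ⟨by simpa using h [] a w rfl, ?_, he⟩
      intro x c y hxy
      have := h (a :: x) c y (by simp [hxy])
      simpa using this

end Vale.Agent.P329.Height
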