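import Vale.Agent.P329.Height.Closure

/-! Languages recognized by finite aperiodic monoids are star-free (Schützenberger 1965),
by the local divisor argument of Diekert and Kufleitner. -/

namespace Vale.Agent.P329.Height

open Vale.Agent.P329

variable {α : Type}

/-- All letters of the word lie in `B`. -/
def Over (B : Finset α) : Language α := {w | ∀ a ∈ w, a ∈ B}

theorem sf_over [Fintype α] (B : Finset α) : SF (Over B) := by
  refine sf_congr (sf_compl (sf_exists
    (fun a : {a : α // a ∉ B} =>
      (Any : Language α) * ({[a.1]} : Language α) * (Any : Language α))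
    fun a => sf_mul (sf_mul sf_univ (sf_letter a.1)) sf_univ)) fun w => ?_
  show ¬ (∃ a : {a : α // a ∉ B}, w ∈ _) ↔ ∀ a ∈ w, a ∈ B
  constructor
  · intro h a ha
    by_contra hB
    obtain ⟨s, t, rfl⟩ := List.append_of_mem ha
    refine h ⟨⟨a, hB⟩, ?_⟩
    refine Language.mem_mul.2 ⟨s ++ [a], ?_, t, trivial, by simp⟩
    exact Language.mem_mul.2 ⟨s, trivial, [a], rfl, rfl⟩
  · rintro h ⟨⟨a, hB⟩, hw⟩
    obtain ⟨x, hx, t, -, rfl⟩ := Language.mem_mul.1 hw
    obtain ⟨s, -, y, hy, rfl⟩ := Language.mem_mul.1 hx
    have hy' : y = [a] := hy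
    subst hy'
    exact hB (h a (by simp))

section LocalDivisor

variable {M : Type} [Monoid M]

/-- Carrier of the local divisor at `c`. -/
def LD (c : M) : Type := {x : M // (∃ a, x = c * a) ∧ ∃ b, x = b * c}

theorem ld_indep {c : M} (x y : LD c) {a a' : M} (ha : y.1 = c * a) (ha' : y.1 = c * a') :
    x.1 * a = x.1 * a' := by
  obtain ⟨b, hb⟩ := x.2.2
  rw [hb, mul_assoc, ← ha, mul_assoc, ← ha']

/-- Product in the local divisor. -/
noncomputable def ldMul {c : M} (x y : LD c) : LD c :=
  ⟨x.1 * Classical.choose y.2.1, by
    obtain ⟨a, ha⟩ := x.2.1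
    exact ⟨a * Classical.choose y.2.1, by rw [ha, mul_assoc]⟩, by
    obtain ⟨b, hb⟩ := x.2.2
    obtain ⟨b', hb'⟩ := y.2.2
    refine ⟨b * b', ?_⟩
    rw [hb, mul_assoc, ← Classical.choose_spec y.2.1, hb', mul_assoc]⟩

theorem ldMul_val {c : M} (x y : LD c) {a : M} (ha : y.1 = c * a) :
    (ldMul x y).1 = x.1 * a :=
  ld_indep x y (Classical.choose_spec y.2.1) ha

/-- Unit of the local divisor. -/
def ldOne (c : M) : LD c := ⟨c, ⟨1, (mul_one c).symm⟩, ⟨1, (one_mul c).symm⟩⟩

noncomputable instance ldMonoid (c : M) : Monoid (LD c) where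
  mul x y := ldMul x y
  one := ldOne c
  mul_assoc x y z := Subtype.ext <| by
    obtain ⟨a, ha⟩ := y.2.1
    obtain ⟨d, hd⟩ := z.2.1
    have hyz : (ldMul y z).1 = c * (a * d) := by rw [ldMul_val y z hd, ha, mul_assoc]
    show (ldMul (ldMul x y) z).1 = (ldMul x (ldMul y z)).1
    rw [ldMul_val _ z hd, ldMul_val x y ha, ldMul_val x (ldMul y z) hyz, mul_assoc]
  one_mul x := Subtype.ext <| by
    obtain ⟨a, ha⟩ := x.2.1
    show (ldMul (ldOne c) x).1 = x.1
    rw [ldMul_val _ x ha, ha]
    rfl
  mul_one x := Subtype.ext <| by
    show (ldMul x (ldOne c)).1 = x.1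
    rw [ldMul_val x (ldOne c) (a := 1) (mul_one c).symm, mul_one]

theorem ld_aperiodic (hM : ∀ x : M, ∃ n, x ^ n = x ^ (n + 1)) (c : M) (x : LD c) :
    ∃ n, x ^ n = x ^ (n + 1) := by
  obtain ⟨b, hb⟩ := x.2.2
  obtain ⟨a, ha⟩ := x.2.1
  have key : ∀ k, (x ^ k).1 = b ^ k * c := by
    intro k
    induction k with
    | zero => rw [pow_zero, pow_zero, one_mul]; rfl
    | succ k ih =>
      rw [pow_succ]
      show (ldMul (x ^ k) x).1 = _
      rw [ldMul_val _ x ha, ih, mul_assoc, ← ha, hb, ← mul_assoc, pow_succ]
  obtain ⟨n, hn⟩ := hM b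
  exact ⟨n, Subtype.ext (by rw [key, key, hn])⟩

theorem one_not_left {c a : M} (hM : ∀ x : M, ∃ n, x ^ n = x ^ (n + 1)) (h : c * a = 1) :
    c = 1 := by
  obtain ⟨n, hn⟩ := hM c
  have h' : ∀ k, c ^ k * a ^ k = 1 := by
    intro k
    induction k with
    | zero => simp
    | succ k ih =>
      rw [pow_succ, pow_succ', mul_assoc, ← mul_assoc c, h, one_mul, ih]
  calc c = c * (c ^ n * a ^ n) := by rw [h', mul_one]
    _ = c ^ (n + 1) * a ^ n := by rw [← mul_assoc, ← pow_succ']
    _ = 1 := by rw [← hn, h']

theorem card_ld_lt [Finite M] (hM : ∀ x : M, ∃ n, x ^ n = x ^ (n + 1)) {c : M} (hc : c ≠ 1) :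
    Nat.card (LD c) < Nat.card M := by
  refine Finite.card_subtype_lt (x := (1 : M)) ?_
  rintro ⟨⟨a, ha⟩, -⟩
  exact hc (one_not_left hM ha.symm)

end LocalDivisor

variable {M : Type} [Monoid M]

/-- Value of a word. -/
def ev (f : α → M) (w : List α) : M := (w.map f).prod

@[simp] theorem ev_nil (f : α → M) : ev f [] = 1 := rfl

@[simp] theorem ev_cons (f : α → M) (a : α) (w : List α) : ev f (a :: w) = f a * ev f w := rfl

@[simp] theorem ev_append (f : α → M) (u w : List α) : ev f (u ++ w) = ev f u * ev f w := by
  simp [ev]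

theorem blocks_unique {c : α} : ∀ us vs : List (List α), (∀ u ∈ us, c ∉ u) → (∀ v ∈ vs, c ∉ v) →
    (us.map fun u => u ++ [c]).flatten = (vs.map fun u => u ++ [c]).flatten → us = vs
  | [], [], _, _, _ => rfl
  | [], v :: vs, _, _, h => by simp at h
  | u :: us, [], _, _, h => by simp at h
  | u :: us, v :: vs, hu, hv, h => by
    simp only [List.map_cons, List.flatten_cons, List.append_assoc, List.singleton_append] at h
    have huv : u = v := by
      rcases List.append_eq_append_iff.1 h with ⟨z, hz1, hz2⟩ | ⟨z, hz1, hz2⟩
      · rcases z with _ | ⟨d, z⟩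
        · simpa using hz1.symm
        · simp only [List.cons_append, List.cons.injEq] at hz2
          exact absurd (hz1 ▸ (by simp [← hz2.1] : c ∈ u ++ d :: z)) (hv v (by simp))
      · rcases z with _ | ⟨d, z⟩
        · simpa using hz1
        · simp only [List.cons_append, List.cons.injEq] at hz2
          exact absurd (hz1 ▸ (by simp [← hz2.1] : c ∈ v ++ d :: z)) (hu u (by simp))
    subst huv
    have := List.append_cancel_left h
    rw [List.cons.injEq] at this
    rw [blocks_unique us vs (fun x hx => hu x (List.mem_cons_of_mem _ hx))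
      (fun x hx => hv x (List.mem_cons_of_mem _ hx)) this.2]

theorem blocks_exist [DecidableEq α] (B : Finset α) (c : α) :
    ∀ r : List α, r ∈ Over B → ∃ us : List (List α), (∀ u ∈ us, u ∈ Over (B.erase c)) ∧
      ∃ q ∈ Over (B.erase c), r = (us.map fun u => u ++ [c]).flatten ++ q
  | [], _ => ⟨[], fun _ h => absurd h List.not_mem_nil, [], fun _ h => absurd h List.not_mem_nil, rfl⟩
  | a :: r, h => by
    obtain ⟨us, hus, q, hq, hr⟩ :=
      blocks_exist B c r fun x hx => h x (List.mem_cons_of_mem _ hx)
    by_cases hac : a = c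
    · refine ⟨[] :: us, ?_, q, hq, ?_⟩
      · intro v hv
        rcases List.mem_cons.1 hv with rfl | hv
        · exact fun x hx => absurd hx List.not_mem_nil
        · exact hus v hv
      · simp [hr, hac]
    · have ha : a ∈ B.erase c := Finset.mem_erase.2 ⟨hac, h a (List.mem_cons_self ..)⟩
      rcases us with _ | ⟨u, us⟩
      · refine ⟨[], by simp, a :: q, ?_, by simp [hr]⟩
        intro x hx
        rcases List.mem_cons.1 hx with rfl | hx
        · exact ha
        · exact hq x hx
      · refine ⟨(a :: u) :: us, ?_, q, hq, by simp [hr]⟩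
        intro v hv
        rcases List.mem_cons.1 hv with rfl | hv
        · intro x hx
          rcases List.mem_cons.1 hx with rfl | hx
          · exact ha
          · exact hus u (List.mem_cons_self ..) x hx
        · exact hus v (List.mem_cons_of_mem _ hv)

theorem sf_of_aperiodic_aux : ∀ (N : ℕ) (M : Type) [Monoid M] [Finite M], Nat.card M ≤ N →
    (∀ x : M, ∃ n, x ^ n = x ^ (n + 1)) → ∀ (α : Type) [Fintype α] [DecidableEq α] (f : α → M)
      (B : Finset α) (m : M), SF ({w | w ∈ Over B ∧ ev f w = m} : Language α) := by
  intro N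
  induction N with
  | zero =>
    intro M _ _ hM
    have := Nat.card_pos (α := M)
    omega
  | succ N ihN =>
    intro M _ _ hMN hM α _ _ f B
    induction B using Finset.strongInduction with
    | _ B ihB =>
    intro m
    classical
    by_cases hall : ∀ a ∈ B, f a = 1
    · have h1 : ∀ w : List α, w ∈ Over B → ev f w = 1 := by
        intro w hw
        induction w with
        | nil => rfl
        | cons a w ih =>
          rw [ev_cons, hall a (hw a (List.mem_cons_self ..)),
            ih fun x hx => hw x (List.mem_cons_of_mem _ hx), one_mul]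
      by_cases hm : m = 1
      · exact sf_congr (sf_over B) fun w => ⟨fun hw => ⟨hw, by rw [h1 w hw, hm]⟩, fun hw => hw.1⟩
      · exact sf_congr sf_zero fun w => iff_of_false (Language.notMem_zero w)
          fun hw => hm (by rw [← hw.2, h1 w hw.1])
    · push Not at hall
      obtain ⟨c, hcB, hc⟩ := hall
      let L' : M → Language α := fun t => {w | w ∈ Over (B.erase c) ∧ ev f w = t}
      have hL' : ∀ t, SF (L' t) := ihB _ (Finset.erase_ssubset hcB)
      let D : Language α := {r | ∃ us : List (List α), (∀ u ∈ us, u ∈ Over (B.erase c)) ∧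
        (us.map fun u => u ++ [c]).flatten = r}
      have hnotc : ∀ u : List α, u ∈ Over (B.erase c) → c ∉ u := fun u hu h =>
        Finset.notMem_erase c B (hu c h)
      have hsub : ∀ u : List α, u ∈ Over (B.erase c) → u ∈ Over B := fun u hu x hx =>
        Finset.mem_of_mem_erase (hu x hx)
      have hD : SF D := by
        refine sf_congr (sf_add sf_one (sf_mul (sf_over B) (sf_letter c))) fun r => ?_
        rw [Language.mem_add, Language.mem_one, Language.mem_mul]
        constructor
        · rintro (rfl | ⟨x, hx, y, hy, rfl⟩)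
          · exact ⟨[], by simp, rfl⟩
          · have hy' : y = [c] := hy
            subst hy'
            obtain ⟨us, hus, q, hq, rfl⟩ := blocks_exist B c x hx
            refine ⟨us ++ [q], ?_, by simp⟩
            intro u hu
            rcases List.mem_append.1 hu with hu | hu
            · exact hus u hu
            · rw [List.mem_singleton.1 hu]; exact hq
        · rintro ⟨us, hus, rfl⟩
          rcases List.eq_nil_or_concat us with rfl | ⟨vs, v, rfl⟩
          · exact Or.inl rfl
          · refine Or.inr ⟨(vs.map fun u => u ++ [c]).flatten ++ v, ?_, [c], rfl, by simp⟩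
            intro x hx
            rcases List.mem_append.1 hx with hx | hx
            · obtain ⟨l, hl, hxl⟩ := List.mem_flatten.1 hx
              obtain ⟨u, hu, rfl⟩ := List.mem_map.1 hl
              rcases List.mem_append.1 hxl with hxl | hxl
              · exact hsub u (hus u (by simp [hu])) x hxl
              · rwa [List.mem_singleton.1 hxl]
            · exact hsub v (hus v (by simp)) x hx
      let R : GRE M → Language α := fun E => {r | ∃ us : List (List α),
        (∀ u ∈ us, u ∈ Over (B.erase c)) ∧ (us.map fun u => u ++ [c]).flatten = r ∧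
          us.map (ev f) ∈ E.lang}
      have hR : ∀ E : GRE M, E.sh = 0 → SF (R E) := by
        intro E
        induction E with
        | zero =>
          intro _
          refine sf_congr sf_zero fun r => iff_of_false (Language.notMem_zero r) ?_
          rintro ⟨us, -, -, h⟩
          exact Language.notMem_zero _ h
        | one =>
          intro _
          refine sf_congr sf_one fun r => ?_
          rw [Language.mem_one]
          constructor
          · rintro rfl
            exact ⟨[], by simp, rfl, rfl⟩
          · rintro ⟨us, -, rfl, h⟩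
            have h' : us.map (ev f) = [] := h
            rw [List.map_eq_nil_iff] at h'
            subst h'
            rfl
        | letter t =>
          intro _
          refine sf_congr (sf_mul (hL' t) (sf_letter c)) fun r => ?_
          rw [Language.mem_mul]
          constructor
          · rintro ⟨u, ⟨hu, hut⟩, y, hy, rfl⟩
            have hy' : y = [c] := hy
            subst hy'
            exact ⟨[u], by simpa using hu, by simp, by simp [GRE.lang, hut]; rfl⟩
          · rintro ⟨us, hus, rfl, h⟩
            have h' : us.map (ev f) = [t] := h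
            obtain ⟨u, rfl, hut⟩ := List.map_eq_singleton_iff.1 h'
            exact ⟨u, ⟨hus u (by simp), hut⟩, [c], rfl, by simp⟩
        | plus P Q hP hQ =>
          intro h
          simp only [GRE.sh, Nat.max_eq_zero_iff] at h
          refine sf_congr (sf_add (hP h.1) (hQ h.2)) fun r => ?_
          constructor
          · rintro (⟨us, h1, h2, h3⟩ | ⟨us, h1, h2, h3⟩)
            · exact ⟨us, h1, h2, Or.inl h3⟩
            · exact ⟨us, h1, h2, Or.inr h3⟩
          · rintro ⟨us, h1, h2, (h3 | h3)⟩
            · exact Or.inl ⟨us, h1, h2, h3⟩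
            · exact Or.inr ⟨us, h1, h2, h3⟩
        | cat P Q hP hQ =>
          intro h
          simp only [GRE.sh, Nat.max_eq_zero_iff] at h
          refine sf_congr (sf_mul (hP h.1) (hQ h.2)) fun r => ?_
          rw [Language.mem_mul]
          constructor
          · rintro ⟨x, ⟨us, h1, rfl, h3⟩, y, ⟨vs, g1, rfl, g3⟩, rfl⟩
            refine ⟨us ++ vs, ?_, by simp, ?_⟩
            · intro u hu
              rcases List.mem_append.1 hu with hu | hu
              · exact h1 u hu
              · exact g1 u hu
            · rw [List.map_append]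
              exact Language.append_mem_mul h3 g3
          · rintro ⟨us, h1, rfl, h3⟩
            obtain ⟨x, hx, y, hy, hxy⟩ := Language.mem_mul.1 h3
            obtain ⟨u1, u2, rfl, rfl, rfl⟩ := List.map_eq_append_iff.1 hxy.symm
            exact ⟨_, ⟨u1, fun u hu => h1 u (by simp [hu]), rfl, hx⟩, _,
              ⟨u2, fun u hu => h1 u (by simp [hu]), rfl, hy⟩, by simp⟩
        | neg P hP =>
          intro h
          refine sf_congr (sf_inter hD (sf_compl (hP h))) fun r => ?_
          constructor
          · rintro ⟨⟨us, h1, h2⟩, hn⟩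
            exact ⟨us, h1, h2, fun h3 => hn ⟨us, h1, h2, h3⟩⟩
          · rintro ⟨us, h1, h2, h3⟩
            refine ⟨⟨us, h1, h2⟩, ?_⟩
            rintro ⟨vs, g1, g2, g3⟩
            have := blocks_unique us vs (fun u hu => hnotc u (h1 u hu))
              (fun u hu => hnotc u (g1 u hu)) (by rw [h2, g2])
            exact h3 (this ▸ g3)
        | star P _ =>
          intro h
          simp [GRE.sh] at h
      have : Finite (LD (f c)) := Subtype.finite
      let g : M → LD (f c) := fun t =>
        ⟨f c * t * f c, ⟨t * f c, mul_assoc _ _ _⟩, ⟨f c * t, rfl⟩⟩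
      let instF : Fintype M := Fintype.ofFinite M
      have hcard : Nat.card (LD (f c)) ≤ N := by have := card_ld_lt hM hc; omega
      have hE : ∀ x : LD (f c), ∃ E : GRE M, E.sh = 0 ∧
          ∀ ts : List M, ts ∈ E.lang ↔ (ts.map g).prod = x := by
        intro x
        obtain ⟨E, hE0, hE⟩ := ihN (LD (f c)) hcard (ld_aperiodic hM (f c)) M g Finset.univ x
        refine ⟨E, hE0, fun ts => ?_⟩
        rw [hE]
        exact ⟨fun h => h.2, fun h => ⟨fun a _ => Finset.mem_univ a, h⟩⟩
      choose Ex hEx0 hEx using hE
      have hval : ∀ us : List (List α), (((us.map (ev f)).map g).prod).1 =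
          f c * ev f ((us.map fun u => u ++ [c]).flatten) := by
        intro us
        induction us with
        | nil => simp; rfl
        | cons u us ih =>
          simp only [List.map_cons, List.prod_cons, List.flatten_cons, ev_append, ev_cons,
            ev_nil, mul_one]
          show (ldMul _ _).1 = _
          rw [ldMul_val _ _ ih]
          simp [g, mul_assoc]
      refine sf_congr (sf_add (hL' m) (sf_exists
        (fun i : {i : M × LD (f c) × M // i.1 * i.2.1.1 * i.2.2 = m} =>
          L' i.1.1 * ({[c]} : Language α) * R (Ex i.1.2.1) * L' i.1.2.2)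
        fun i => sf_mul (sf_mul (sf_mul (hL' _) (sf_letter c)) (hR _ (hEx0 _))) (hL' _))) fun w => ?_
      refine (Language.mem_add _ _ w).trans ?_
      constructor
      · rintro (⟨hw, hwm⟩ | ⟨⟨⟨p, n, q⟩, hpq⟩, hw⟩)
        · exact ⟨hsub w hw, hwm⟩
        · obtain ⟨x, hx, v, ⟨hv, hvq⟩, rfl⟩ := Language.mem_mul.1 hw
          obtain ⟨y, hy, r, ⟨us, hus, rfl, hn⟩, rfl⟩ := Language.mem_mul.1 hx
          obtain ⟨u, ⟨hu, hup⟩, z, hz, rfl⟩ := Language.mem_mul.1 hy
          have hz' : z = [c] := hz
          subst hz'
          have hn' := (hEx n _).1 hn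
          refine ⟨?_, ?_⟩
          · intro a ha
            simp only [List.mem_append, List.mem_singleton, List.mem_flatten, List.mem_map] at ha
            rcases ha with ((ha | rfl) | ⟨l, ⟨u', hu', rfl⟩, ha⟩) | ha
            · exact hsub u hu a ha
            · exact hcB
            · rcases List.mem_append.1 ha with ha | ha
              · exact hsub u' (hus u' hu') a ha
              · rwa [List.mem_singleton.1 ha]
            · exact hsub v hv a ha
          · have hval' := hval us
            rw [hn'] at hval'
            simp only [ev_append, ev_cons, ev_nil, mul_one, hup, hvq] at *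
            rw [← hpq, hval']
            simp [mul_assoc]
      · rintro ⟨hw, hwm⟩
        by_cases hcw : c ∈ w
        · right
          obtain ⟨us0, hus0, q, hq, rfl⟩ := blocks_exist B c w hw
          rcases us0 with _ | ⟨u, us⟩
          · exact absurd (by simpa using hcw) (hnotc q hq)
          · refine ⟨⟨(ev f u, ((us.map (ev f)).map g).prod, ev f q), ?_⟩, ?_⟩
            · show ev f u * _ * ev f q = m
              rw [hval us, ← hwm]
              simp [mul_assoc]
            · refine Language.mem_mul.2 ⟨u ++ [c] ++ (us.map fun u => u ++ [c]).flatten, ?_, q,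
                ⟨hq, rfl⟩, by simp⟩
              refine Language.mem_mul.2 ⟨u ++ [c], ?_, _, ?_, rfl⟩
              · exact Language.mem_mul.2 ⟨u, ⟨hus0 u (by simp), rfl⟩, [c], rfl, rfl⟩
              · exact ⟨us, fun v hv => hus0 v (by simp [hv]), rfl, (hEx _ _).2 rfl⟩
        · exact Or.inl ⟨fun a ha => Finset.mem_erase.2 ⟨fun e => hcw (e ▸ ha), hw a ha⟩, hwm⟩

/-- Fibres of a morphism into a finite aperiodic monoid are star-free. -/
theorem sf_of_aperiodic [Fintype α] [Finite M] (hM : ∀ x : M, ∃ n, x ^ n = x ^ (n + 1))
    (f : α → M) (m : M) : SF ({w | ev f w = m} : Language α) := by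
  classical
  exact sf_congr (sf_of_aperiodic_aux _ M le_rfl hM α f Finset.univ m)
    fun w => ⟨fun h => h.2, fun h => ⟨fun a _ => Finset.mem_univ a, h⟩⟩

end Vale.Agent.P329.Height
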