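import Vale.Agent.P329.Height.Local

/-! Return segments of the phase walk and the counting of their classes modulo `M` (P329). -/

namespace Vale.Agent.P329.Height

open Vale.Agent.P329

variable {α : Type}

theorem h1_count (K P : Language α) (hP : SF (K ⊓ P)) (hR : SF (KStar.kstar (K ⊓ Pᶜ)))
    [DecidablePred (· ∈ P)] (M : ℕ) [NeZero M] (c : ZMod M) :
    H1 ({w | ∃ us : List (List α), (∀ u ∈ us, u ∈ K) ∧ us.flatten = w ∧
      ((us.countP fun u => decide (u ∈ P) : ℕ) : ZMod M) = c} : Language α) := by
  set L : Language α := KStar.kstar (K ⊓ Pᶜ) * (K ⊓ P) with hL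
  have hLsf : SF L := sf_mul hR hP
  refine h1_congr (h1_mul (h1_mul (h1_star (sf_pow hLsf M)) (sf_h1 (sf_pow hLsf c.val)))
    (sf_h1 hR)) fun w => ?_
  have fwd : ∀ us : List (List α), (∀ u ∈ us, u ∈ K) →
      us.flatten ∈ L ^ (us.countP fun u => decide (u ∈ P)) * KStar.kstar (K ⊓ Pᶜ) := by
    intro us
    induction us with
    | nil =>
      intro _
      simp only [List.countP_nil, pow_zero, one_mul, List.flatten_nil]
      exact Language.nil_mem_kstar _
    | cons u us ih =>
      intro h
      have := ih fun v hv => h v (List.mem_cons_of_mem _ hv)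
      by_cases hu : u ∈ P
      · rw [List.countP_cons_of_pos (by simpa using hu), pow_succ', mul_assoc, List.flatten_cons]
        refine Language.append_mem_mul ?_ this
        rw [hL]
        have h0 : ([] : List α) ∈ KStar.kstar (K ⊓ Pᶜ) := Language.nil_mem_kstar _
        have := Language.append_mem_mul h0 (show u ∈ K ⊓ P from ⟨h u (List.mem_cons_self ..), hu⟩)
        simpa using this
      · rw [List.countP_cons_of_neg (by simpa using hu), List.flatten_cons]
        have hu' : u ∈ K ⊓ Pᶜ := ⟨h u (List.mem_cons_self ..), hu⟩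
        have pre : ∀ x ∈ KStar.kstar (K ⊓ Pᶜ), u ++ x ∈ KStar.kstar (K ⊓ Pᶜ) := by
          intro x hx
          obtain ⟨S, rfl, hS⟩ := Language.mem_kstar.1 hx
          refine Language.mem_kstar.2 ⟨u :: S, rfl, ?_⟩
          intro y hy
          rcases List.mem_cons.1 hy with rfl | hy
          · exact hu'
          · exact hS y hy
        generalize (us.countP fun u => decide (u ∈ P)) = n at this ⊢
        rcases n with _ | n
        · rw [pow_zero, one_mul] at this ⊢
          exact pre _ this
        · rw [pow_succ', hL, mul_assoc, mul_assoc] at this ⊢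
          obtain ⟨x, hx, y, hy, hxy⟩ := Language.mem_mul.1 this
          rw [← hxy, ← List.append_assoc]
          exact Language.append_mem_mul (pre x hx) hy
  have bwd : ∀ n, ∀ w ∈ L ^ n * KStar.kstar (K ⊓ Pᶜ), ∃ us : List (List α),
      (∀ u ∈ us, u ∈ K) ∧ us.flatten = w ∧ (us.countP fun u => decide (u ∈ P)) = n := by
    intro n
    induction n with
    | zero =>
      intro w hw
      rw [pow_zero, one_mul] at hw
      obtain ⟨S, rfl, hS⟩ := Language.mem_kstar.1 hw
      refine ⟨S, fun u hu => (hS u hu).1, rfl, ?_⟩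
      exact List.countP_eq_zero.2 fun u hu => by simpa using (show u ∉ P from (hS u hu).2)
    | succ n ih =>
      intro w hw
      rw [pow_succ', hL, mul_assoc, mul_assoc] at hw
      obtain ⟨x, hx, y, hy, rfl⟩ := Language.mem_mul.1 hw
      obtain ⟨u, hu, z, hz, rfl⟩ := Language.mem_mul.1 hy
      obtain ⟨us, h1, rfl, h3⟩ := ih z hz
      obtain ⟨S, rfl, hS⟩ := Language.mem_kstar.1 hx
      refine ⟨S ++ u :: us, ?_, by simp, ?_⟩
      · intro v hv
        rcases List.mem_append.1 hv with hv | hv
        · exact (hS v hv).1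
        · rcases List.mem_cons.1 hv with rfl | hv
          · exact hu.1
          · exact h1 v hv
      · rw [List.countP_append, List.countP_cons_of_pos (by simpa using (show u ∈ P from hu.2)), h3,
          List.countP_eq_zero.2 fun v hv => by simpa using (show v ∉ P from (hS v hv).2), zero_add]
  constructor
  · intro hw
    obtain ⟨xy, hxy, z, hz, rfl⟩ := Language.mem_mul.1 hw
    obtain ⟨x, hx, y, hy, rfl⟩ := Language.mem_mul.1 hxy
    rw [Language.kstar_eq_iSup_pow, Language.mem_iSup] at hx
    obtain ⟨k, hk⟩ := hx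
    rw [← pow_mul] at hk
    have hxy' : x ++ y ∈ L ^ (M * k + c.val) := by
      rw [pow_add]
      exact Language.append_mem_mul hk hy
    obtain ⟨us, h1, h2, h3⟩ := bwd _ _ (Language.append_mem_mul hxy' hz)
    exact ⟨us, h1, h2, by rw [h3]; simp⟩
  · rintro ⟨us, h1, rfl, h3⟩
    have := fwd us h1
    set n := us.countP fun u => decide (u ∈ P) with hn
    have hc : c.val = n % M := by rw [← h3, ZMod.val_natCast]
    obtain ⟨x, hx, z, hz, hxz⟩ := Language.mem_mul.1 this
    rw [← hxz]
    refine Language.append_mem_mul ?_ hz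
    rw [← Nat.div_add_mod n M, pow_add, pow_mul] at hx
    obtain ⟨a, ha, b, hb, hab⟩ := Language.mem_mul.1 hx
    rw [← hab, hc]
    refine Language.append_mem_mul ?_ hb
    rw [Language.kstar_eq_iSup_pow, Language.mem_iSup]
    exact ⟨_, ha⟩

variable {p : ℕ} (φ : α → ZMod p)

/-- Return segments: nonempty words of phase zero without earlier return. -/
def Ret : Language α :=
  {u | u ≠ [] ∧ ph φ u = 0 ∧ ∀ x a y, u = x ++ a :: y → x ≠ [] → ph φ x ≠ 0}

/-- Words without a return. -/
def Post : Language α := {w | ∀ x y, w = x ++ y → x ≠ [] → ph φ x ≠ 0}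

/-- Words reaching phase `v` only at the end. -/
def Pre (v : ZMod p) : Language α :=
  {w | ph φ w = v ∧ ∀ x a y, w = x ++ a :: y → ph φ x ≠ v}

/-- Words never at phase `v`. -/
def Never (v : ZMod p) : Language α := {w | ∀ x y, w = x ++ y → ph φ x ≠ v}

/-- Words whose walk from `q` avoids `v` before the end and ends in `E`. -/
def Avoid (v : ZMod p) (E : ZMod p → Prop) (q : ZMod p) : Language α :=
  {w | (∀ x a y, w = x ++ a :: y → q + ph φ x ≠ v) ∧ E (q + ph φ w)}

variable [Fintype α] [Fact p.Prime]

theorem sf_avoid (v : ZMod p) (E : ZMod p → Prop) (q : ZMod p) :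
    SF (Avoid φ v E q) := by
  let A : Option α → ZMod p → Option α → Prop := fun _ q next =>
    (next ≠ none → q ≠ v) ∧ (next = none → E q)
  have hF : ∀ x y z : α, Full A x y → Full A y z → False := fun x y z h _ =>
    (h v).1 (by simp) rfl
  refine sf_congr (sf_acc φ A (Or.inr hF) (none, q)) fun w => ?_
  show acc φ A (none, q) w ↔ _
  have key := acc_ignore_prev φ A (fun q _ => q ≠ v) E fun pr q => ⟨fun a => by simp [A], by simp [A]⟩
  rcases w with _ | ⟨a, w⟩
  · show acc φ A (none, q) [] ↔ (∀ x a y, [] = x ++ a :: y → q + ph φ x ≠ v) ∧ E (q + ph φ [])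
    simp [acc, A]
  · have e : acc φ A (none, q) (a :: w) ↔ acc φ A (some a, q) (a :: w) := by simp [acc, A]
    rw [e, key]
    rfl

theorem sf_ret : SF (Ret φ) := by
  refine sf_congr (sf_exists (fun a : α => ({[a]} : Language α) *
    Avoid φ 0 (fun q => q = 0) (φ a))
    fun a => sf_mul (sf_letter a) (sf_avoid φ 0 (fun q => q = 0) (φ a))) fun u => ?_
  constructor
  · rintro ⟨a, hu⟩
    obtain ⟨x, hx, w, ⟨h1, h2⟩, rfl⟩ := Language.mem_mul.1 hu
    have hx' : x = [a] := hx
    subst hx'
    refine ⟨by simp, by simpa using h2, fun x b y hxy hne => ?_⟩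
    rcases x with _ | ⟨c, x⟩
    · exact absurd rfl hne
    · simp only [List.singleton_append, List.cons_append, List.cons.injEq] at hxy
      rw [ph_cons, ← hxy.1]
      exact h1 x b y hxy.2
  · rintro ⟨h0, h1, h2⟩
    rcases u with _ | ⟨a, w⟩
    · exact absurd rfl h0
    · refine ⟨a, Language.mem_mul.2 ⟨[a], rfl, w, ⟨fun x b y hxy => ?_, by simpa using h1⟩, rfl⟩⟩
      simpa using h2 (a :: x) b y (by simp [hxy]) (by simp)

theorem sf_post : SF (Post φ) := by
  refine sf_congr (sf_add sf_one (sf_exists (fun a : α => ({[a]} : Language α) *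
    Avoid φ 0 (fun q => q ≠ 0) (φ a))
    fun a => sf_mul (sf_letter a) (sf_avoid φ 0 (fun q => q ≠ 0) (φ a)))) fun u => ?_
  refine (Language.mem_add _ _ u).trans ?_
  constructor
  · rintro (hu | ⟨a, hu⟩)
    · rw [(Language.mem_one u).1 hu]
      intro x y hxy hne
      simp only [List.nil_eq, List.append_eq_nil_iff] at hxy
      exact absurd hxy.1 hne
    · obtain ⟨x, hx, w, ⟨h1, h2⟩, rfl⟩ := Language.mem_mul.1 hu
      have hx' : x = [a] := hx
      subst hx'
      intro x y hxy hne
      rcases x with _ | ⟨c, x⟩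
      · exact absurd rfl hne
      · simp only [List.singleton_append, List.cons_append, List.cons.injEq] at hxy
        rw [ph_cons, ← hxy.1]
        rcases y with _ | ⟨b, y⟩
        · rw [List.append_nil] at hxy
          rw [← hxy.2]
          exact h2
        · exact h1 x b y hxy.2
  · intro h
    rcases u with _ | ⟨a, w⟩
    · exact Or.inl ((Language.mem_one _).2 rfl)
    · refine Or.inr ⟨a, Language.mem_mul.2 ⟨[a], rfl, w, ⟨fun x b y hxy => ?_, ?_⟩, rfl⟩⟩
      · simpa using h (a :: x) (b :: y) (by simp [hxy]) (by simp)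
      · simpa using h (a :: w) [] (by simp) (by simp)

theorem sf_pre (v : ZMod p) : SF (Pre φ v) := by
  refine sf_congr (sf_avoid φ v (fun q => q = v) 0) fun w => ?_
  show (∀ x a y, w = x ++ a :: y → 0 + ph φ x ≠ v) ∧ 0 + ph φ w = v ↔ _
  simp only [zero_add]
  exact and_comm

theorem sf_never (v : ZMod p) : SF (Never φ v) := by
  refine sf_congr (sf_avoid φ v (fun q => q ≠ v) 0) fun w => ?_
  show (∀ x a y, w = x ++ a :: y → 0 + ph φ x ≠ v) ∧ 0 + ph φ w ≠ v ↔ _
  simp only [zero_add]
  constructor
  · rintro ⟨h1, h2⟩ x y rfl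
    rcases y with _ | ⟨b, y⟩
    · simpa using h2
    · exact h1 x b y rfl
  · intro h
    exact ⟨fun x a y hxy => h x (a :: y) hxy, h w [] (by simp)⟩

omit [Fintype α] [Fact p.Prime] in
theorem units_exist : ∀ (w : List α), ∃ us : List (List α), (∀ u ∈ us, u ∈ Ret φ) ∧
    ∃ q ∈ Post φ, w = us.flatten ++ q := by
  intro w
  induction hn : w.length using Nat.strong_induction_on generalizing w with
  | _ n ih =>
    classical
    by_cases h : w ∈ Post φ
    · exact ⟨[], by simp, w, h, rfl⟩
    · have h' : ∃ i, i ≤ w.length ∧ i ≠ 0 ∧ ph φ (w.take i) = 0 := by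
        by_contra hne
        refine h fun x y hxy hx he => hne ⟨x.length, ?_, ?_, ?_⟩
        · simp [hxy]
        · simpa using hx
        · simpa [hxy] using he
      obtain ⟨i, ⟨h1, h2, h3⟩, hmin⟩ : ∃ i, (i ≤ w.length ∧ i ≠ 0 ∧ ph φ (w.take i) = 0) ∧
          ∀ j, j < i → ¬ (j ≤ w.length ∧ j ≠ 0 ∧ ph φ (w.take j) = 0) :=
        ⟨Nat.find h', Nat.find_spec h', fun j hj => Nat.find_min h' hj⟩
      have hret : w.take i ∈ Ret φ := by
        refine ⟨?_, h3, fun x a y hxy hne he => ?_⟩
        · intro e
          have := congrArg List.length e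
          rw [List.length_take, List.length_nil] at this
          omega
        · have hlen : x.length < i := by
            have := congrArg List.length hxy
            simp at this
            omega
          refine hmin _ hlen ⟨by omega, by simpa using hne, ?_⟩
          have : w.take x.length = x := by
            have e := congrArg (List.take x.length) hxy
            rw [List.take_take, Nat.min_eq_left (by omega)] at e
            simpa using e
          rw [this]
          exact he
      obtain ⟨us, hus, q, hq, hwq⟩ := ih (w.drop i).length (by simp; omega) _ rfl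
      refine ⟨w.take i :: us, ?_, q, hq, ?_⟩
      · intro u hu
        rcases List.mem_cons.1 hu with rfl | hu
        · exact hret
        · exact hus u hu
      · rw [List.flatten_cons, List.append_assoc, ← hwq, List.take_append_drop]

omit [Fintype α] [Fact p.Prime] in
theorem units_unique : ∀ (us vs : List (List α)), (∀ u ∈ us, u ∈ Ret φ) →
    (∀ v ∈ vs, v ∈ Ret φ) → us.flatten = vs.flatten → us = vs
  | [], [], _, _, _ => rfl
  | [], v :: vs, _, hv, h => by
    simp only [List.flatten_nil, List.flatten_cons, List.nil_eq, List.append_eq_nil_iff] at h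
    exact absurd h.1 (hv v (List.mem_cons_self ..)).1
  | u :: us, [], hu, _, h => by
    simp only [List.flatten_nil, List.flatten_cons, List.append_eq_nil_iff] at h
    exact absurd h.1 (hu u (List.mem_cons_self ..)).1
  | u :: us, v :: vs, hu, hv, h => by
    simp only [List.flatten_cons] at h
    obtain ⟨hu0, hu1, hu2⟩ := hu u (List.mem_cons_self ..)
    obtain ⟨hv0, hv1, hv2⟩ := hv v (List.mem_cons_self ..)
    have huv : u = v := by
      rcases List.append_eq_append_iff.1 h with ⟨z, hz1, -⟩ | ⟨z, hz1, -⟩
      · rcases z with _ | ⟨d, z⟩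
        · simpa using hz1.symm
        · exact absurd hu1 (hv2 u d z hz1 hu0)
      · rcases z with _ | ⟨d, z⟩
        · simpa using hz1
        · exact absurd hv1 (hu2 v d z hz1 hv0)
    subst huv
    rw [units_unique us vs (fun x hx => hu x (List.mem_cons_of_mem _ hx))
      (fun x hx => hv x (List.mem_cons_of_mem _ hx)) (List.append_cancel_left h)]

open Classical in
/-- The return segments of a word of phase zero. -/
noncomputable def units (w : List α) : List (List α) :=
  if h : ∃ us : List (List α), (∀ u ∈ us, u ∈ Ret φ) ∧ us.flatten = w then Classical.choose h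
  else []

omit [Fintype α] [Fact p.Prime] in
theorem units_flatten {us : List (List α)} (h : ∀ u ∈ us, u ∈ Ret φ) :
    units φ us.flatten = us := by
  have hex : ∃ vs : List (List α), (∀ u ∈ vs, u ∈ Ret φ) ∧ vs.flatten = us.flatten :=
    ⟨us, h, rfl⟩
  rw [units, dif_pos hex]
  exact units_unique φ _ _ (Classical.choose_spec hex).1 h (Classical.choose_spec hex).2

theorem meas_units_count (P : Language α) [DecidablePred (· ∈ P)]
    (hP : SF (Ret φ ⊓ P)) (hR : SF (KStar.kstar (Ret φ ⊓ Pᶜ))) (M : ℕ) [NeZero M] :
    Meas (fun w => (((units φ w).countP fun u => decide (u ∈ P) : ℕ) : ZMod M)) := by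
  intro c
  have hS : H1 (KStar.kstar (Ret φ)) := h1_star (sf_ret φ)
  have hrest : H1 (if c = 0 then (KStar.kstar (Ret φ))ᶜ else 0) := by
    split
    · exact h1_compl hS
    · exact h1_zero
  refine h1_congr (h1_add (h1_count _ P hP hR M c) hrest) fun w => ?_
  refine (Language.mem_add _ _ w).trans ?_
  constructor
  · rintro (⟨us, h1, rfl, h3⟩ | hw)
    · show ((_ : ℕ) : ZMod M) = c
      simp only [units_flatten φ h1]
      exact h3
    · show ((List.countP _ (units φ w) : ℕ) : ZMod M) = c
      by_cases hc : c = 0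
      · rw [if_pos hc] at hw
        have : units φ w = [] := by
          rw [units, dif_neg]
          rintro ⟨us, h1, h2⟩
          exact hw (Language.mem_kstar.2 ⟨us, h2.symm, h1⟩)
        simp [this, hc]
      · rw [if_neg hc] at hw
        exact absurd hw (Language.notMem_zero w)
  · intro hw
    by_cases hex : w ∈ KStar.kstar (Ret φ)
    · left
      obtain ⟨us, rfl, h1⟩ := Language.mem_kstar.1 hex
      refine ⟨us, h1, rfl, ?_⟩
      have hw' : ((List.countP _ (units φ us.flatten) : ℕ) : ZMod M) = c := hw
      rwa [units_flatten φ h1] at hw'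
    · right
      have hw' : ((List.countP _ (units φ w) : ℕ) : ZMod M) = c := hw
      have : units φ w = [] := by
        rw [units, dif_neg]
        rintro ⟨us, h1, h2⟩
        exact hex (Language.mem_kstar.2 ⟨us, h2.symm, h1⟩)
      rw [this] at hw'
      simp at hw'
      rw [if_pos hw'.symm]
      exact hex

/-- Return segments that start with `x` and end with `y`. -/
def Cls (x y : α) : Language α := {u | u ∈ Ret φ ∧ u.head? = some x ∧ u.getLast? = some y}

theorem cls_inter (x y : α) : Ret φ ⊓ Cls φ x y = Cls φ x y :=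
  inf_eq_right.2 fun _ h => h.1

theorem sf_cls (x y : α) : SF (Cls φ x y) := by
  refine sf_congr (sf_inter (sf_ret φ) (sf_inter (sf_mul (sf_letter x) sf_univ)
    (sf_mul sf_univ (sf_letter y)))) fun u => ?_
  show u ∈ Ret φ ∧ u ∈ ({[x]} : Language α) * Any ∧ u ∈ (Any : Language α) * {[y]} ↔ _
  refine (and_congr Iff.rfl (and_congr Language.mem_mul Language.mem_mul)).trans ?_
  constructor
  · rintro ⟨h, ⟨a, ha, r, -, rfl⟩, ⟨r', -, b, hb, hrb⟩⟩
    have ha' : a = [x] := ha
    have hb' : b = [y] := hb
    subst ha' hb'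
    exact ⟨h, rfl, by rw [← hrb]; simp⟩
  · rintro ⟨h, hx, hy⟩
    refine ⟨h, ⟨[x], rfl, u.tail, trivial, ?_⟩, ⟨u.dropLast, trivial, [y], rfl, ?_⟩⟩
    · exact List.cons_head?_tail hx
    · exact List.dropLast_append_getLast? y hy

/-- Local conditions describing concatenations of segments of one class. -/
def starCond (x y : α) (prev : Option α) (q : ZMod p) (next : Option α) : Prop :=
  (q = 0 → prev = some y ∧ (next = none ∨ next = some x)) ∧ (next = none → q = 0)

theorem acc_star_segment (x y : α) : ∀ (u : List α) (b : α) (q : ZMod p) (r : List α),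
    (∀ z a t, u = z ++ a :: t → q + ph φ z ≠ 0) → q + ph φ u = 0 →
    (acc φ (starCond x y) (some b, q) (u ++ r) ↔
      acc φ (starCond x y) ((b :: u).getLast?, 0) r)
  | [], b, q, r, _, h => by
    simp only [ph_nil, add_zero] at h
    simp [h]
  | a :: u, b, q, r, hz, h => by
    have hq : q ≠ 0 := by simpa using hz [] a u rfl
    rw [List.getLast?_cons_cons, ← acc_star_segment x y u a (q + φ a) r ?_ ?_, List.cons_append]
    · simp [acc, starCond, hq]
    · intro z c t he
      have := hz (a :: z) c t (by simp [he])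
      simpa [add_assoc] using this
    · simpa [add_assoc] using h

theorem acc_star_dead (x y : α) : ∀ (u : List α) (b : α) (q : ZMod p),
    (∀ z t, u = z ++ t → q + ph φ z ≠ 0) → ¬ acc φ (starCond x y) (some b, q) u
  | [], b, q, hz => fun h => hz [] [] rfl (by simpa [acc, starCond] using h.2 rfl)
  | a :: u, b, q, hz => fun h => acc_star_dead x y u a (q + φ a)
      (fun z t he => by simpa [add_assoc] using hz (a :: z) t (by simp [he])) h.2

theorem acc_star_cons {x y : α} {u r : List α} (hu : u ∈ Ret φ) :
    acc φ (starCond x y) (some y, 0) (u ++ r) ↔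
      u.head? = some x ∧ acc φ (starCond x y) (u.getLast?, 0) r := by
  obtain ⟨hu0, hu1, hu2⟩ := hu
  rcases u with _ | ⟨a, u⟩
  · exact absurd rfl hu0
  · rw [← acc_star_segment φ x y u a (φ a) r ?_ (by simpa using hu1)]
    · simp [acc, starCond, eq_comm]
    · intro z c t he
      simpa using hu2 (a :: z) c t (by simp [he]) (by simp)

theorem kstar_cls_eq (x y : α) (w : List α) :
    acc φ (starCond x y) (some y, 0) w ↔ w ∈ KStar.kstar (Cls φ x y) := by
  constructor
  · intro h
    obtain ⟨us, hus, q, hq, rfl⟩ := units_exist φ w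
    induction us with
    | nil =>
      rw [List.flatten_nil, List.nil_append] at h ⊢
      rcases q with _ | ⟨a, q⟩
      · exact Language.nil_mem_kstar _
      · exact absurd h.2 (acc_star_dead φ x y q a _ fun z t he => by
          simpa using hq (a :: z) t (by simp [he]) (by simp))
    | cons u us ih =>
      have hu := hus u (List.mem_cons_self ..)
      rw [List.flatten_cons, List.append_assoc] at h ⊢
      rw [acc_star_cons φ hu] at h
      have hy : u.getLast? = some y := by
        have h0 := h.2
        rcases hl : us.flatten ++ q with _ | ⟨b, r⟩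
        · rw [hl] at h0
          exact (h0.1 rfl).1
        · rw [hl] at h0
          exact (h0.1.1 rfl).1
      rw [hy] at h
      obtain ⟨S, hS, hSmem⟩ :=
        Language.mem_kstar.1 (ih (fun v hv => hus v (List.mem_cons_of_mem _ hv)) h.2)
      refine Language.mem_kstar.2 ⟨u :: S, by rw [List.flatten_cons, ← hS], ?_⟩
      intro v hv
      rcases List.mem_cons.1 hv with rfl | hv
      · exact ⟨hu, h.1, hy⟩
      · exact hSmem v hv
  · intro h
    obtain ⟨S, rfl, hS⟩ := Language.mem_kstar.1 h
    induction S with
    | nil => simp [acc, starCond]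
    | cons u S ih =>
      obtain ⟨hu, hx, hy⟩ := hS u (List.mem_cons_self ..)
      rw [List.flatten_cons, acc_star_cons φ hu, hy]
      exact ⟨hx, ih (fun v hv => hS v (List.mem_cons_of_mem _ hv))
        (Language.mem_kstar.2 ⟨S, rfl, fun v hv => hS v (List.mem_cons_of_mem _ hv)⟩)⟩

theorem sf_kstar_cls {x y : α} (hxy : x ≠ y) : SF (KStar.kstar (Cls φ x y)) := by
  refine sf_congr (sf_acc φ (starCond x y) (Or.inr ?_) (some y, 0)) (kstar_cls_eq φ x y)
  intro a b c h1 h2
  have e1 := (h1 0).1 rfl
  have e2 := (h2 0).1 rfl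
  simp only [Option.some.injEq, reduceCtorEq, false_or] at e1 e2
  exact hxy (e1.2.symm.trans e2.1)

theorem cls_fix {x : α} (hx : φ x = 0) : Cls φ x x = ({[x]} : Language α) := by
  ext u
  constructor
  · rintro ⟨⟨-, -, h2⟩, hh, -⟩
    rcases u with _ | ⟨a, u⟩
    · simp at hh
    · simp only [List.head?_cons, Option.some.injEq] at hh
      subst hh
      rcases u with _ | ⟨b, u⟩
      · rfl
      · exact absurd (by simp [hx]) (h2 [a] b u rfl (by simp))
  · intro h
    have h' : u = [x] := h
    subst h'
    refine ⟨⟨by simp, by simp [hx], fun z a t he hne => ?_⟩, rfl, rfl⟩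
    rcases z with _ | ⟨c, z⟩
    · exact absurd rfl hne
    · simp at he

theorem sf_kstar_letter (x : α) : SF (KStar.kstar ({[x]} : Language α)) := by
  classical
  refine sf_congr (sf_over ({x} : Finset α)) fun w => ?_
  rw [Language.mem_kstar]
  constructor
  · intro h
    refine ⟨w.map fun a => [a], ?_, ?_⟩
    · induction w with
      | nil => rfl
      | cons a w ih =>
        rw [List.map_cons, List.flatten_cons,
          ← ih fun b hb => h b (List.mem_cons_of_mem _ hb)]
        rfl
    · intro y hy
      obtain ⟨a, ha, rfl⟩ := List.mem_map.1 hy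
      rw [Finset.mem_singleton.1 (h a ha)]
      rfl
  · rintro ⟨S, rfl, hS⟩ a ha
    obtain ⟨l, hl, hal⟩ := List.mem_flatten.1 ha
    have hl' : l = [x] := hS l hl
    subst hl'
    simpa using hal

end Vale.Agent.P329.Height
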